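import Vale.Agent.P082.Lim.Words

/-!
# P082: `Iface.StmtLim` from `Iface.StmtVal`

Pairs of reduced patterns with an empty word, a long word, or an index used four times carry little
weight; the others are evaluated by `StmtVal`, once for `G` and once for the identity map, whose
value is exactly one.
-/

namespace Vale.Agent.P082.Lim

open Finset Filter
open scoped InnerProductSpace Nat

universe u

variable {H : Type u} [NormedAddCommGroup H] [InnerProductSpace ℂ H] [CompleteSpace H]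
variable {M : VonNeumannAlgebra H} (W : Walk M) {m n j : ℕ}

theorem norm_one_le {ξ : H} (hξ : IsTrVec M ξ) : ‖(1 : Alg M)‖ ≤ 1 := by
  have : Nontrivial (Alg M) := by
    refine ⟨⟨1, 0, fun e => ?_⟩⟩
    have h := congrArg (ev ξ) e
    simp [ev] at h
    simpa [h] using hξ.norm
  exact le_of_eq norm_one

theorem norm_unitary_le {ξ : H} (hξ : IsTrVec M ξ) {a : Alg M} (ha : a ∈ unitary (Alg M)) :
    ‖a‖ ≤ 1 := by
  have h : ‖star a * a‖ = ‖a‖ * ‖a‖ := CStarRing.norm_star_mul_self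
  rw [Unitary.star_mul_self_of_mem ha] at h
  nlinarith [norm_one_le hξ, norm_nonneg a]

theorem norm_valP_le {ξ : H} (hξ : IsTrVec M ξ) {G : Alg M →L[ℂ] Alg M} {C : ℝ}
    (hG : ∀ a, ‖G a‖ ≤ C * ‖a‖) (hC : 0 ≤ C) {pre post : Alg M} (hp : pre ∈ unitary (Alg M))
    (hq : post ∈ unitary (Alg M)) (η : Alg M) (p : Pair m j) :
    ‖valP W ξ G n pre post η p‖ ≤ C * ‖η‖ := by
  have : Nonempty (Fin W.size) := ⟨⟨0, W.size_pos⟩⟩
  refine norm_avg_le fun r => (norm_tr_le hξ _).trans ?_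
  refine (norm_mul_le _ _).trans (mul_le_mul_of_nonneg_right ?_ (norm_nonneg _))
  refine (norm_mul_le _ _).trans ?_
  have h1 := norm_unitary_le hξ (blocks_mem W r hp hq p.1)
  have h2 := norm_unitary_le hξ (Unitary.star_mem (blocks_mem W r hp hq p.2))
  calc ‖G (W.blocks r pre post p.1)‖ * ‖star (W.blocks r pre post p.2)‖
      ≤ (C * 1) * 1 :=
        mul_le_mul ((hG _).trans (by gcongr)) h2 (norm_nonneg _) (by positivity)
    _ = C := by ring

open scoped Classical in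
/-- The weight of the good identical pairs. -/
noncomputable def massD (x : ℝ) (m j D P : ℕ) : ℂ :=
  ∑ p ∈ pairs m j D, if GoodPair p.1 p.2 P ∧ p.1 = p.2 then coef x D p else 0

theorem bad_cases {D P₀ : ℕ} {p : Pair m j} (hp : p ∈ pairs m j D)
    (hs : Surv (pairLabels p.1 p.2)) (h : ¬GoodPair p.1 p.2 ((j + j) * P₀)) :
    (∃ i, lens p i = 0) ∨ (∃ i, P₀ < lens p i) ∨
      ((pairLabels p.1 p.2).length ≤ (j + j) * P₀ ∧
        2 * #(((pairLabels p.1 p.2).map Prod.fst).toFinset) + 2 ≤ (pairLabels p.1 p.2).length) := by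
  by_contra hc
  simp only [not_or, not_exists, not_and] at hc
  obtain ⟨h0, hlong, hfew⟩ := hc
  have hlen : (pairLabels p.1 p.2).length ≤ (j + j) * P₀ := by
    rw [length_pairLabels]
    refine (sum_le_card_nsmul _ _ P₀ fun i _ => ?_).trans (le_of_eq (by simp))
    exact not_lt.1 (hlong i)
  have hgood : (pairLabels p.1 p.2).Nodup ∧
      ∀ l ∈ pairLabels p.1 p.2, Lab.flip l ∈ pairLabels p.1 p.2 := by
    by_contra hne
    exact hfew hlen (few_of_not_good hs hne)
  simp only [pairs, mem_product, Fintype.mem_piFinset, mem_redBelow] at hp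
  refine h ⟨hgood.1, hgood.2, hlen, fun i => ⟨fun e => ?_, fun e => ?_⟩,
    fun i => ⟨(hp.1 i).2, (hp.2 i).2⟩⟩
  · exact h0 (Sum.inl i) (by simp [lens, e])
  · exact h0 (Sum.inr i) (by simp [lens, e])

/-- The coefficient bound of the weights. -/
noncomputable def gam (m : ℕ) (x : ℝ) (D d : ℕ) : ℝ := ‖cD m x D d‖

theorem norm_coef_le (x : ℝ) (D : ℕ) (p : Pair m j) : ‖coef x D p‖ ≤ wt (gam m x D) p := by
  refine (norm_mul_le _ _).trans (le_trans (mul_le_of_le_one_right (norm_nonneg _)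
    (norm_avg_phase_le _)) (le_of_eq ?_))
  simp [cof, wR, wt, gam, lens, Fintype.prod_sum_type, norm_prod, abs_of_nonneg (sig_nonneg m)]

theorem coef_eq_zero (x : ℝ) (D : ℕ) {p : Pair m j} (h : ¬Surv (pairLabels p.1 p.2)) :
    coef x D p = 0 := by
  simp [coef, avg_phase_eq_zero h]

/-- The total of the majorant, at least one. -/
noncomputable def amp (j : ℕ) : ℝ := 1 + ∑' d, hW j d

theorem one_le_amp (j : ℕ) : 1 ≤ amp j :=
  le_add_of_nonneg_right (tsum_nonneg (hW_nonneg j))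

/-- The weight left to the bad pairs. -/
noncomputable def bad (m : ℕ) (x : ℝ) (D j P₀ : ℕ) : ℝ :=
  (j + j) * ‖cD m x D 0‖ + (j + j) * (∑' i, hW j (i + (P₀ + 1))) +
    (2 * ((j + j) * P₀ : ℕ) : ℝ) ^ ((j + j) * P₀) / m

theorem bad_nonneg (m : ℕ) (x : ℝ) (D j P₀ : ℕ) : 0 ≤ bad m x D j P₀ := by
  have : 0 ≤ ∑' i, hW j (i + (P₀ + 1)) := tsum_nonneg fun i => hW_nonneg _ _
  unfold bad; positivity

theorem main_bound (hm : 0 < m) {x : ℝ} (hx : |x| ≤ 2) (D P₀ : ℕ) {ξ : H} (hξ : IsTrVec M ξ)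
    {G : Alg M →L[ℂ] Alg M} {C ε' : ℝ} (hG : ∀ a, ‖G a‖ ≤ C * ‖a‖) (hC : 0 ≤ C) (hε : 0 ≤ ε')
    {pre post : Alg M} (hp : pre ∈ unitary (Alg M)) (hq : post ∈ unitary (Alg M)) (η : Alg M)
    (hval : ∀ sA sB : Fin j → List (Lab m), GoodPair sA sB ((j + j) * P₀) →
      ‖valP W ξ G n pre post η (sA, sB) - (if sA = sB then tr ξ (G pre * star pre * η) else 0)‖
        ≤ ε' * ‖η‖) :
    ‖avgD W ξ G x D j n pre post η m -
        massD x m j D ((j + j) * P₀) * tr ξ (G pre * star pre * η)‖ ≤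
      (ε' + C * bad m x D j P₀) * amp j ^ (j + j) * ‖η‖ := by
  classical
  rw [avgD_eq W hm, massD, sum_mul, ← sum_sub_distrib]
  set γ := gam m x D
  have hγ : ∀ d, 0 ≤ γ d := fun d => norm_nonneg _
  have hγle : ∀ d, γ d ≤ Real.exp 4 * 4 ^ d / d ! := norm_cD_le hm hx D
  set A := amp j
  have hA1 : 1 ≤ A := one_le_amp j
  set Q := (pairs m j D).filter fun p => Surv (pairLabels p.1 p.2)
  set Q₁ := fun i => Q.filter fun p : Pair m j => lens p i = 0
  set Q₂ := fun i => Q.filter fun p : Pair m j => P₀ < lens p i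
  set Q₃ := Q.filter fun p : Pair m j => (pairLabels p.1 p.2).length ≤ (j + j) * P₀ ∧
      2 * #(((pairLabels p.1 p.2).map Prod.fst).toFinset) + 2 ≤ (pairLabels p.1 p.2).length
  have hterm : ∀ p ∈ pairs m j D,
      ‖coef x D p * valP W ξ G n pre post η p -
          (if GoodPair p.1 p.2 ((j + j) * P₀) ∧ p.1 = p.2 then coef x D p else 0) *
            tr ξ (G pre * star pre * η)‖ ≤
        (if p ∈ Q then ε' * ‖η‖ * wt γ p else 0) + C * ‖η‖ *
          ((∑ i, if p ∈ Q₁ i then wt γ p else 0) + (∑ i, if p ∈ Q₂ i then wt γ p else 0) +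
            if p ∈ Q₃ then wt γ p else 0) := by
    intro p hp'
    by_cases hs : Surv (pairLabels p.1 p.2)
    swap
    · have hQ : p ∉ Q := fun h => hs (mem_filter.1 h).2
      simp [coef_eq_zero x D hs, Q₁, Q₂, Q₃, hQ]
    have hQ : p ∈ Q := mem_filter.2 ⟨hp', hs⟩
    have hw := wt_nonneg (m := m) hγ p
    have hs1 : ∀ i, 0 ≤ if p ∈ Q₁ i then wt γ p else 0 := fun i => by split <;> positivity
    have hs2 : ∀ i, 0 ≤ if p ∈ Q₂ i then wt γ p else 0 := fun i => by split <;> positivity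
    have hs3 : 0 ≤ if p ∈ Q₃ then wt γ p else 0 := by split <;> positivity
    have hb1 := sum_nonneg fun i (_ : i ∈ univ) => hs1 i
    have hb2 := sum_nonneg fun i (_ : i ∈ univ) => hs2 i
    rw [if_pos hQ]
    by_cases hg : GoodPair p.1 p.2 ((j + j) * P₀)
    · rw [show (if GoodPair p.1 p.2 ((j + j) * P₀) ∧ p.1 = p.2 then coef x D p else 0) *
          tr ξ (G pre * star pre * η) = coef x D p *
            (if p.1 = p.2 then tr ξ (G pre * star pre * η) else 0) by
        simp only [hg, true_and]; split <;> simp, ← mul_sub, norm_mul]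
      refine (mul_le_mul (norm_coef_le x D p) (hval p.1 p.2 hg) (norm_nonneg _) hw).trans ?_
      nlinarith [mul_nonneg (mul_nonneg hC (norm_nonneg η))
        (add_nonneg (add_nonneg hb1 hb2) hs3)]
    · rw [if_neg (fun h => hg h.1), zero_mul, sub_zero, norm_mul]
      refine (mul_le_mul (norm_coef_le x D p) (norm_valP_le W hξ hG hC hp hq η p)
        (norm_nonneg _) hw).trans ?_
      have hone : wt γ p ≤ (∑ i, if p ∈ Q₁ i then wt γ p else 0) +
          (∑ i, if p ∈ Q₂ i then wt γ p else 0) + if p ∈ Q₃ then wt γ p else 0 := by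
        rcases bad_cases hp' hs hg with ⟨i, hi⟩ | ⟨i, hi⟩ | hf
        · have := single_le_sum (fun i _ => hs1 i) (mem_univ i)
          rw [if_pos (mem_filter.2 ⟨hQ, hi⟩)] at this
          linarith
        · have := single_le_sum (fun i _ => hs2 i) (mem_univ i)
          rw [if_pos (mem_filter.2 ⟨hQ, hi⟩)] at this
          linarith
        · rw [if_pos (show p ∈ Q₃ from mem_filter.2 ⟨hQ, hf⟩)]
          linarith
      nlinarith [mul_le_mul_of_nonneg_left hone (mul_nonneg hC (norm_nonneg η)),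
        mul_nonneg (mul_nonneg hε (norm_nonneg η)) hw]
  refine (norm_sum_le _ _).trans ((sum_le_sum hterm).trans ?_)
  have hsub : Q ⊆ pairs m j D := filter_subset _ _
  have hflt : ∀ S : Finset (Pair m j), S ⊆ pairs m j D → ∀ f : Pair m j → ℝ,
      ∑ p ∈ pairs m j D, (if p ∈ S then f p else 0) = ∑ p ∈ S, f p := fun S hS f => by
    simp [Finset.sum_ite_mem, inter_eq_right.2 hS]
  have hswap : ∀ F : Fin j ⊕ Fin j → Finset (Pair m j), (∀ i, F i ⊆ pairs m j D) →
      ∑ p ∈ pairs m j D, ∑ i, (if p ∈ F i then wt γ p else 0) = ∑ i, ∑ p ∈ F i, wt γ p :=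
    fun F hF => sum_comm.trans (sum_congr rfl fun i _ => hflt (F i) (hF i) _)
  rw [sum_add_distrib, ← mul_sum, sum_add_distrib, sum_add_distrib,
    hswap Q₁ fun i => (filter_subset _ _).trans hsub,
    hswap Q₂ fun i => (filter_subset _ _).trans hsub,
    hflt Q hsub, hflt Q₃ ((filter_subset _ _).trans hsub), ← mul_sum]
  have hlens : ∀ p ∈ Q, ∀ i, lens p i < D := by
    intro p hp' i
    have h := hsub hp'
    simp only [pairs, mem_product, Fintype.mem_piFinset, mem_redBelow] at h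
    rcases i with i | i
    · exact (h.1 i).1
    · exact (h.2 i).1
  have hall : ∀ T : Finset ℕ, ∑ d ∈ T, gW j γ d ≤ A := fun T =>
    ((sum_le_sum fun d _ => gW_le_hW hγle j d).trans
      ((summable_hW j).sum_le_tsum T fun d _ => hW_nonneg j d)).trans (le_add_of_nonneg_left zero_le_one)
  have hg0 : ∀ T : Finset ℕ, 0 ≤ ∑ d ∈ T, gW j γ d := fun T =>
    sum_nonneg fun d _ => (hγ d).trans (le_gW hγ j d)
  have hk : #(univ : Finset (Fin j ⊕ Fin j)) = j + j := by simp
  have htot : ∀ T : Fin j ⊕ Fin j → Finset ℕ, ∏ i, ∑ d ∈ T i, gW j γ d ≤ A ^ (j + j) := fun T =>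
    (prod_le_prod (fun i _ => hg0 _) fun i _ => hall _).trans (by rw [prod_const, hk])
  have hone : ∀ (i : Fin j ⊕ Fin j) (T' : Finset ℕ) (S : Finset (Pair m j)), S ⊆ Q →
      (∀ p ∈ S, lens p i ∈ T') → ∑ p ∈ S, wt γ p ≤ (∑ d ∈ T', gW j γ d) * A ^ (j + j) := by
    intro i T' S hS hT'
    refine (wt_sum_even hm hγ S (Function.update (fun _ => range D) i T') (fun p hp' i' => ?_)
      fun p hp' => (mem_filter.1 (hS hp')).2).trans ?_
    · rcases eq_or_ne i' i with rfl | hne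
      · simpa using hT' p hp'
      · simpa [hne] using hlens p (hS hp') i'
    rw [← mul_prod_erase univ _ (mem_univ i), Function.update_self]
    refine mul_le_mul_of_nonneg_left ?_ (hg0 _)
    refine (prod_le_prod (fun i _ => hg0 _) fun i _ => hall _).trans ?_
    rw [prod_const]
    exact pow_le_pow_right₀ hA1 (by rw [← hk]; exact card_le_univ _)
  have h0 : ∑ p ∈ Q, wt γ p ≤ A ^ (j + j) :=
    (wt_sum_even hm hγ Q (fun _ => range D) (fun p hp' i => mem_range.2 (hlens p hp' i))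
      fun p hp' => (mem_filter.1 hp').2).trans (htot _)
  have h1 : ∀ i, ∑ p ∈ Q₁ i, wt γ p ≤ ‖cD m x D 0‖ * A ^ (j + j) := fun i =>
    (hone i {0} _ (filter_subset _ _) fun p hp' => mem_singleton.2 (mem_filter.1 hp').2).trans
      (le_of_eq (by simp [gW, γ, gam]))
  have h2 : ∀ i, ∑ p ∈ Q₂ i, wt γ p ≤ (∑' i, hW j (i + (P₀ + 1))) * A ^ (j + j) := fun i => by
    refine (hone i ((range D).filter fun d => P₀ < d) _ (filter_subset _ _) fun p hp' =>
      mem_filter.2 ⟨mem_range.2 (hlens p (mem_filter.1 hp').1 i), (mem_filter.1 hp').2⟩).trans ?_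
    refine mul_le_mul_of_nonneg_right ((sum_le_sum fun d _ => gW_le_hW hγle j d).trans ?_)
      (pow_nonneg (by linarith) _)
    refine le_trans ?_ (((summable_nat_add_iff (P₀ + 1)).2 (summable_hW j)).sum_le_tsum
      (range D) fun d _ => hW_nonneg _ _)
    rw [show ∑ i ∈ range D, hW j (i + (P₀ + 1)) =
      ∑ d ∈ (range D).map (addRightEmbedding (P₀ + 1)), hW j d by simp [sum_map]]
    refine sum_le_sum_of_subset_of_nonneg (fun d hd => ?_) fun d _ _ => hW_nonneg _ _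
    simp only [mem_filter, mem_range] at hd
    simp only [Finset.mem_map, mem_range, addRightEmbedding_apply]
    exact ⟨d - (P₀ + 1), by omega, by omega⟩
  have h3 : ∑ p ∈ Q₃, wt γ p ≤
      (2 * ((j + j) * P₀ : ℕ) : ℝ) ^ ((j + j) * P₀) / m * A ^ (j + j) := by
    refine (wt_sum_few hm hγ Q₃ (fun _ => range D)
      (fun p hp' i => mem_range.2 (hlens p (mem_filter.1 hp').1 i))
      fun p hp' => (mem_filter.1 hp').2).trans (mul_le_mul_of_nonneg_left ?_ (by positivity))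
    exact (prod_le_prod (fun i _ => sum_nonneg fun d _ => hγ d)
      fun i _ => sum_le_sum fun d _ => le_gW hγ j d).trans (htot _)
  have h1' := (sum_le_sum fun i (_ : i ∈ univ) => h1 i).trans_eq
    (by rw [sum_const, hk, nsmul_eq_mul] : _ = ((j + j : ℕ) : ℝ) * (‖cD m x D 0‖ * A ^ (j + j)))
  have h2' := (sum_le_sum fun i (_ : i ∈ univ) => h2 i).trans_eq
    (by rw [sum_const, hk, nsmul_eq_mul] :
      _ = ((j + j : ℕ) : ℝ) * ((∑' i, hW j (i + (P₀ + 1))) * A ^ (j + j)))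
  push_cast at h1' h2'
  calc ε' * ‖η‖ * ∑ p ∈ Q, wt γ p + C * ‖η‖ *
        ((∑ i, ∑ p ∈ Q₁ i, wt γ p) + (∑ i, ∑ p ∈ Q₂ i, wt γ p) + ∑ p ∈ Q₃, wt γ p)
      ≤ ε' * ‖η‖ * A ^ (j + j) + C * ‖η‖ * (bad m x D j P₀ * A ^ (j + j)) := by
        refine add_le_add (mul_le_mul_of_nonneg_left h0 (by positivity))
          (mul_le_mul_of_nonneg_left ?_ (by positivity))
        rw [bad, add_mul, add_mul, mul_assoc, mul_assoc]
        linarith
    _ = _ := by ring

/-- The expression without truncation. -/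
noncomputable def avgX (ξ : H) (G : Alg M →L[ℂ] Alg M) (x : ℝ) (j n : ℕ) (pre post η : Alg M)
    (m : ℕ) : ℂ :=
  avg fun ω : Om W m n =>
    tr ξ (G ((pre * NormedSpace.exp ((Complex.I * (x : ℂ)) • W.randS ω) * post) ^ j) *
      star ((pre * NormedSpace.exp ((Complex.I * (x : ℂ)) • W.randS ω) * post) ^ j) * η)

theorem tendsto_avgD (ξ : H) (G : Alg M →L[ℂ] Alg M) (x : ℝ) (j n : ℕ) (pre post η : Alg M)
    (m : ℕ) : Tendsto (fun D => avgD W ξ G x D j n pre post η m) atTop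
      (nhds (avgX W ξ G x j n pre post η m)) := by
  simp only [avgD, avgX, avg, ← trL_apply]
  refine (tendsto_finsetSum _ fun ω _ => ?_).const_smul _
  have hc : Continuous fun a : Alg M =>
      trL ξ (G ((pre * a * post) ^ j) * star ((pre * a * post) ^ j) * η) := by fun_prop
  exact (hc.tendsto _).comp (tendsto_expD W x ω)

theorem exp_mem_unitary (x : ℝ) (ω : Om W m n) :
    NormedSpace.exp ((Complex.I * (x : ℂ)) • W.randS ω) ∈ unitary (Alg M) := by
  have h : ((x : ℂ)) • W.randS ω ∈ selfAdjoint (Alg M) := by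
    rw [selfAdjoint.mem_iff, star_smul, Complex.star_def, Complex.conj_ofReal,
      (isSelfAdjoint_randS W ω).star_eq]
  have h2 := (selfAdjoint.expUnitary ⟨_, h⟩).2
  rw [selfAdjoint.expUnitary_coe] at h2
  dsimp only at h2
  rwa [smul_smul] at h2

theorem avgX_id {ξ : H} (hξ : IsTrVec M ξ) (x : ℝ) (j n : ℕ) {pre post : Alg M}
    (hp : pre ∈ unitary (Alg M)) (hq : post ∈ unitary (Alg M)) (m : ℕ) :
    avgX W ξ (ContinuousLinearMap.id ℂ (Alg M)) x j n pre post 1 m = 1 := by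
  have : Nonempty (Fin W.size) := ⟨⟨0, W.size_pos⟩⟩
  have h : ∀ ω : Om W m n,
      tr ξ ((pre * NormedSpace.exp ((Complex.I * (x : ℂ)) • W.randS ω) * post) ^ j *
        star ((pre * NormedSpace.exp ((Complex.I * (x : ℂ)) • W.randS ω) * post) ^ j) * 1) = 1 := by
    intro ω
    rw [Unitary.mul_star_self_of_mem (pow_mem (mul_mem (mul_mem hp (exp_mem_unitary W x ω)) hq) j)]
    simp [tr, ev, inner_self_eq_norm_sq_to_K, hξ.norm]
  rw [avgX]
  simp only [ContinuousLinearMap.id_apply]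
  rw [funext h, avg, sum_const, card_univ, nsmul_eq_mul, mul_one, smul_eq_mul]
  exact inv_mul_cancel₀ ((Nat.cast_ne_zero (R := ℂ)).2 Fintype.card_ne_zero)

theorem mix_mono {ξ : H} {z : Alg M} {δ δ' : ℝ} (h : δ ≤ δ') (hM : Mix W ξ z δ) :
    Mix W ξ z δ' :=
  { hM with small := fun c hc => (hM.small c hc).mono fun _ hn => hn.mono fun _ hb => hb.trans h }

theorem harm_id (ξ : H) (hξ : IsTrVec M ξ) :
    Harm W ξ 1 (fun _ => 1) (ContinuousLinearMap.id ℂ (Alg M)) where
  bound a := by simp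
  cont ε hε := by
    refine ⟨{ξ}, by simpa using hξ, by simp, fun a => ?_⟩
    simp only [ContinuousLinearMap.id_apply, sum_singleton, one_mul]
    exact le_add_of_nonneg_left (by positivity)
  harm a := by
    simp only [ContinuousLinearMap.id_apply, avg, mul_assoc, Unitary.mul_star_self_of_mem (W.unit _),
      mul_one, sum_const, card_univ, ← Nat.cast_smul_eq_nsmul ℂ, smul_smul]
    rw [inv_mul_cancel₀ (Nat.cast_ne_zero.2 (by simp [W.size_pos.ne'])), one_smul]

/-- One power and one side. -/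
theorem limit_one.{v} (hVal : Iface.StmtVal.{v}) (C : ℝ) (T : ℝ → ℝ) (j : ℕ) (ε : ℝ) (hC : 0 ≤ C)
    (hT : ∀ s, 0 ≤ T s) (hj : 1 ≤ j) (hε : 0 < ε) :
    ∃ δ : ℝ, 0 < δ ∧ ∀ x : ℝ, |x| ≤ 2 → HasSum (bess (x ^ 2)) 0 → ∀ᶠ m in atTop,
      ∀ (H : Type v) [NormedAddCommGroup H] [InnerProductSpace ℂ H] [CompleteSpace H]
        (M : VonNeumannAlgebra H) (W : Walk M) (ξ : H) (z : Alg M) (G : Alg M →L[ℂ] Alg M),
        IsTrVec M ξ → z ∈ unitary (Alg M) → (∀ ζ, IsTrVec M ζ → Mix W ζ z δ) → Harm W ξ C T G →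
          ∀ᶠ n in atTop, ∀ pre post : Alg M, (pre = z ∧ post = 1) ∨ (pre = 1 ∧ post = star z) →
            ∀ η : Alg M, ‖avgX W ξ G x j n pre post η m - tr ξ (G pre * star pre * η)‖ ≤ ε * ‖η‖ := by
  set A := amp j ^ (j + j)
  have hA : 0 < A := pow_pos (lt_of_lt_of_le one_pos (one_le_amp j)) _
  set ε₁ := ε / (1 + C)
  have hε₁ : 0 < ε₁ := by positivity
  set ε' := ε₁ / (2 * A)
  have hε' : 0 < ε' := by positivity
  set B := ε₁ / (2 * (C + 1) * A)
  have hB : 0 < B := by positivity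
  have hk : (0 : ℝ) < (j + j : ℕ) := Nat.cast_pos.2 (by omega)
  obtain ⟨P₀, hP₀⟩ : ∃ P₀, ∑' i, hW j (i + (P₀ + 1)) ≤ B / (3 * (j + j : ℕ)) :=
    (((tendsto_sum_nat_add (hW j)).comp (tendsto_add_atTop_nat 1)).eventually_le_const
      (by positivity)).exists
  obtain ⟨δ₁, hδ₁, h1⟩ := hVal C T j ((j + j) * P₀) ε' hC hT hj hε'
  obtain ⟨δ₂, hδ₂, h2⟩ :=
    hVal 1 (fun _ => 1) j ((j + j) * P₀) ε' zero_le_one (fun _ => zero_le_one) hj hε'
  refine ⟨min δ₁ δ₂, lt_min hδ₁ hδ₂, fun x hx hx0 => ?_⟩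
  have hfew : ∀ᶠ m : ℕ in atTop,
      (2 * ((j + j) * P₀ : ℕ) : ℝ) ^ ((j + j) * P₀) / m ≤ B / 3 :=
    (tendsto_natCast_atTop_atTop.const_div_atTop _).eventually_le_const (by positivity)
  filter_upwards [cD_zero_small hx hx0 (show (0 : ℝ) < B / (3 * (j + j : ℕ)) by positivity),
    hfew, eventually_gt_atTop 0] with m hc hf hm
  intro H _ _ _ M W ξ z G hξ hz hmix hG
  filter_upwards [h1 H M W ξ z G hξ hz (fun ζ hζ => mix_mono W (min_le_left _ _) (hmix ζ hζ)) hG,
    h2 H M W ξ z (ContinuousLinearMap.id ℂ (Alg M)) hξ hz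
      (fun ζ hζ => mix_mono W (min_le_right _ _) (hmix ζ hζ)) (harm_id W ξ hξ)] with n hn1 hn2
  intro pre post hside η
  have hu : pre ∈ unitary (Alg M) ∧ post ∈ unitary (Alg M) := by
    rcases hside with ⟨rfl, rfl⟩ | ⟨rfl, rfl⟩
    · exact ⟨hz, one_mem _⟩
    · exact ⟨one_mem _, Unitary.star_mem hz⟩
  obtain ⟨hp, hq⟩ := hu
  set a := tr ξ (G pre * star pre * η)
  have ha : ‖a‖ ≤ C * ‖η‖ := by
    refine (norm_tr_le hξ _).trans ((norm_mul_le _ _).trans ?_)
    refine mul_le_mul_of_nonneg_right ((norm_mul_le _ _).trans ?_) (norm_nonneg _)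
    have e1 := norm_unitary_le hξ hp
    have e2 := norm_unitary_le hξ (Unitary.star_mem hp)
    calc ‖G pre‖ * ‖star pre‖ ≤ (C * 1) * 1 :=
          mul_le_mul ((hG.bound pre).trans (by gcongr)) e2 (norm_nonneg _) (by positivity)
      _ = C := by ring
  have hlim := ((tendsto_avgD W ξ G x j n pre post η m).sub
    ((tendsto_avgD W ξ (ContinuousLinearMap.id ℂ (Alg M)) x j n pre post 1 m).mul_const a)).norm
  rw [avgX_id W hξ x j n hp hq m, one_mul] at hlim
  refine le_of_tendsto hlim (hc.mono fun D hD => ?_)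
  have hbad : bad m x D j P₀ ≤ B := by
    have e1 : ((j + j : ℕ) : ℝ) * ‖cD m x D 0‖ ≤ B / 3 := by
      refine (mul_le_mul_of_nonneg_left hD hk.le).trans (le_of_eq ?_)
      field_simp
    have e2 : ((j + j : ℕ) : ℝ) * (∑' i, hW j (i + (P₀ + 1))) ≤ B / 3 := by
      refine (mul_le_mul_of_nonneg_left hP₀ hk.le).trans (le_of_eq ?_)
      field_simp
    push_cast at e1 e2
    rw [bad]
    linarith
  have b1 := main_bound W hm hx D P₀ hξ hG.bound hC hε'.le hp hq η
    (fun sA sB hs => hn1 m pre post hside sA sB hs η)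
  have b2 := main_bound W hm hx D P₀ hξ (harm_id W ξ hξ).bound zero_le_one hε'.le hp hq 1
    (fun sA sB hs => hn2 m pre post hside sA sB hs 1)
  set μ := massD x m j D ((j + j) * P₀)
  have htr : tr ξ ((ContinuousLinearMap.id ℂ (Alg M)) pre * star pre * 1) = 1 := by
    simp [Unitary.mul_star_self_of_mem hp, tr, ev, inner_self_eq_norm_sq_to_K, hξ.norm]
  rw [htr, mul_one] at b2
  have hsmall : ∀ c : ℝ, 0 ≤ c → c ≤ C + 1 → (ε' + c * bad m x D j P₀) * A ≤ ε₁ := by
    intro c hc0 hc1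
    have hm1 : c * bad m x D j P₀ ≤ (C + 1) * B :=
      mul_le_mul hc1 hbad (bad_nonneg _ _ _ _ _) (by linarith)
    calc (ε' + c * bad m x D j P₀) * A ≤ (ε' + (C + 1) * B) * A := by gcongr
      _ = ε₁ := by simp only [ε', B]; field_simp; ring
  have b1' := b1.trans (mul_le_mul_of_nonneg_right (hsmall C hC (by linarith)) (norm_nonneg η))
  have b2' : ‖avgD W ξ (ContinuousLinearMap.id ℂ (Alg M)) x D j n pre post 1 m - μ‖ ≤ ε₁ :=
    b2.trans ((mul_le_mul_of_nonneg_left (norm_one_le hξ)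
      (mul_nonneg (by have := bad_nonneg m x D j P₀; positivity) hA.le)).trans
        (by rw [mul_one]; exact hsmall 1 zero_le_one (by linarith)))
  calc ‖avgD W ξ G x D j n pre post η m -
        avgD W ξ (ContinuousLinearMap.id ℂ (Alg M)) x D j n pre post 1 m * a‖
      = ‖(avgD W ξ G x D j n pre post η m - μ * a) -
          (avgD W ξ (ContinuousLinearMap.id ℂ (Alg M)) x D j n pre post 1 m - μ) * a‖ := by
        congr 1; ring
    _ ≤ ε₁ * ‖η‖ + ε₁ * (C * ‖η‖) := by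
        refine (norm_sub_le _ _).trans (add_le_add b1' ?_)
        rw [norm_mul]
        exact mul_le_mul b2' ha (norm_nonneg _) hε₁.le
    _ = ε * ‖η‖ := by simp only [ε₁]; field_simp

/-- `Iface.StmtLim` from `Iface.StmtVal`. -/
theorem stmtLim.{v} (hVal : Iface.StmtVal.{v}) : Iface.StmtLim.{v} := by
  intro C T J ε hC hT hε
  choose δj hδj hlim using fun i : Fin J =>
    limit_one hVal C T (i.val + 1) ε hC hT (Nat.le_add_left 1 _) hε
  obtain ⟨t, ht0, ht2, ht⟩ := exists_bess_zero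
  obtain ⟨δ, hδ, hδle⟩ : ∃ δ : ℝ, 0 < δ ∧ ∀ i, δ ≤ δj i := by
    refine ⟨(insert 1 (univ.image δj)).min' (insert_nonempty _ _), ?_, fun i =>
      min'_le _ _ (mem_insert_of_mem (mem_image_of_mem _ (mem_univ i)))⟩
    rw [lt_min'_iff]
    intro y hy
    rcases mem_insert.1 hy with rfl | hy
    · exact one_pos
    · obtain ⟨i, -, rfl⟩ := mem_image.1 hy
      exact hδj i
  refine ⟨δ, t, hδ, ?_⟩
  intro H _ _ _ M W ξ z G hξ hz hmix hG
  have hx : |t| ≤ 2 := abs_le.2 ⟨by linarith, ht2⟩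
  have hevm : ∀ᶠ m in atTop, ∀ i : Fin J, ∀ x : ℝ, x = t ∨ x = -t →
      ∀ᶠ n in atTop, ∀ pre post : Alg M, (pre = z ∧ post = 1) ∨ (pre = 1 ∧ post = star z) →
        ∀ η : Alg M,
          ‖avgX W ξ G x (i.val + 1) n pre post η m - tr ξ (G pre * star pre * η)‖ ≤ ε * ‖η‖ := by
    rw [eventually_all]
    intro i
    filter_upwards [hlim i t hx ht, hlim i (-t) (by rwa [abs_neg]) (by rwa [neg_sq]),
      eventually_gt_atTop 0] with m hp hn _
    rintro x (rfl | rfl)
    · exact hp H M W ξ z G hξ hz (fun ζ hζ => mix_mono W (hδle i) (hmix ζ hζ)) hG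
    · exact hn H M W ξ z G hξ hz (fun ζ hζ => mix_mono W (hδle i) (hmix ζ hζ)) hG
  obtain ⟨m, hm, hm0⟩ := (hevm.and (eventually_gt_atTop 0)).exists
  have hevn : ∀ᶠ n in atTop, ∀ i : Fin J, ∀ pre post : Alg M,
      (pre = z ∧ post = 1) ∨ (pre = 1 ∧ post = star z) → ∀ η : Alg M,
        ‖avgX W ξ G t (i.val + 1) n pre post η m - tr ξ (G pre * star pre * η)‖ ≤ ε * ‖η‖ ∧
        ‖avgX W ξ G (-t) (i.val + 1) n pre post η m - tr ξ (G pre * star pre * η)‖ ≤ ε * ‖η‖ := by
    rw [eventually_all]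
    intro i
    filter_upwards [hm i t (Or.inl rfl), hm i (-t) (Or.inr rfl)] with n h1 h2
    exact fun pre post hs η => ⟨h1 pre post hs η, h2 pre post hs η⟩
  obtain ⟨n, hn⟩ := hevn.exists
  refine ⟨m, n, hm0, fun j hj η => ?_⟩
  obtain ⟨hj1, hj2⟩ := mem_Icc.1 hj
  have hP := (hn ⟨j - 1, by omega⟩ z 1 (Or.inl ⟨rfl, rfl⟩) η).1
  have hN := (hn ⟨j - 1, by omega⟩ 1 (star z) (Or.inr ⟨rfl, rfl⟩) η).2
  simp only [show j - 1 + 1 = j by omega, avgX] at hP hN
  refine ⟨?_, ?_⟩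
  · simpa [Walk.randU] using hP
  · have he : ∀ ω : Om W m n, star (NormedSpace.exp ((Complex.I * (t : ℂ)) • W.randS ω)) =
        NormedSpace.exp ((Complex.I * ((-t : ℝ) : ℂ)) • W.randS ω) := by
      intro ω
      rw [NormedSpace.star_exp, star_smul, (isSelfAdjoint_randS W ω).star_eq]
      congr 2
      simp
    have hU : ∀ ω : Om W m n, star (W.randU z t ω) =
        NormedSpace.exp ((Complex.I * ((-t : ℝ) : ℂ)) • W.randS ω) * star z := by
      intro ω
      rw [Walk.randU, star_mul, he ω]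
    simp only [one_mul, star_one, mul_one, ← hU, star_pow, star_star] at hN
    exact hN

end Vale.Agent.P082.Lim
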