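import Mathlib

/-!
# P082 Lim: the coefficients of `exp (i t S)` in reduced words

`coA q p d` is the coefficient of the reduced words of length `d` in `S ^ p`. For `q = 1` and
`d = 0` it is the Catalan number, so the empty word gets a Bessel series, which vanishes at one `t`.
-/

namespace Vale.Agent.P082.Lim

open Finset Filter
open scoped Nat

/-- The coefficients of the reduced-word recursion. -/
def coA (q : ℕ → ℝ) : ℕ → ℕ → ℝ
  | 0, d => if d = 0 then 1 else 0
  | p + 1, 0 => q 0 * coA q p 1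
  | p + 1, d + 1 => coA q p d + q (d + 1) * coA q p (d + 2)

theorem coA_of_lt (q : ℕ → ℝ) : ∀ {p d : ℕ}, p < d → coA q p d = 0 := by
  intro p
  induction p with
  | zero => intro d h; simp [coA, Nat.pos_iff_ne_zero.1 h]
  | succ p ih =>
    intro d h
    obtain ⟨e, rfl⟩ : ∃ e, d = e + 1 := ⟨d - 1, by omega⟩
    simp [coA, ih (show p < e by omega), ih (show p < e + 2 by omega)]

theorem coA_nonneg {q : ℕ → ℝ} (hq : ∀ d, 0 ≤ q d) : ∀ p d, 0 ≤ coA q p d := by
  intro p
  induction p with
  | zero => intro d; simp only [coA]; split <;> norm_num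
  | succ p ih =>
    intro d
    rcases d with - | e <;> simp only [coA]
    · exact mul_nonneg (hq 0) (ih 1)
    · exact add_nonneg (ih e) (mul_nonneg (hq _) (ih _))

theorem coA_le {q : ℕ → ℝ} (h0 : ∀ d, 0 ≤ q d) (h1 : ∀ d, q d ≤ 1) :
    ∀ p d, coA q p d ≤ 2 ^ p := by
  intro p
  induction p with
  | zero => intro d; simp only [coA]; split <;> norm_num
  | succ p ih =>
    intro d
    have key : ∀ i e, q i * coA q p e ≤ 2 ^ p := fun i e =>
      le_trans (mul_le_of_le_one_left (coA_nonneg h0 p e) (h1 i)) (ih e)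
    rcases d with - | e <;> simp only [coA, pow_succ]
    · linarith [key 0 1, pow_nonneg (show (0 : ℝ) ≤ 2 by norm_num) p]
    · linarith [key (e + 1) (e + 2), ih e]

theorem abs_coA_sub_le {q : ℕ → ℝ} {ε : ℝ} (h0 : ∀ d, 0 ≤ q d) (h1 : ∀ d, q d ≤ 1)
    (hε : ∀ d, |q d - 1| ≤ ε) :
    ∀ p d, |coA q p d - coA (fun _ => 1) p d| ≤ p * 2 ^ p * ε := by
  have ε0 : 0 ≤ ε := (abs_nonneg _).trans (hε 0)
  intro p
  induction p with
  | zero => intro d; simp [coA]
  | succ p ih =>
    intro d
    have key : ∀ i e, |q i * coA q p e - 1 * coA (fun _ => 1) p e| ≤ (p + 1) * 2 ^ p * ε := by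
      intro i e
      have : q i * coA q p e - 1 * coA (fun _ => 1) p e =
          (q i - 1) * coA q p e + (coA q p e - coA (fun _ => 1) p e) := by ring
      rw [this]
      refine (abs_add_le _ _).trans ?_
      rw [abs_mul, abs_of_nonneg (coA_nonneg h0 p e)]
      nlinarith [mul_le_mul (hε i) (coA_le h0 h1 p e) (coA_nonneg h0 p e) ε0, ih e]
    have hp : (0 : ℝ) ≤ (p + 1) * 2 ^ p * ε := by positivity
    rcases d with - | e <;> simp only [coA] <;> push_cast [pow_succ]
    · linarith [key 0 1]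
    · have := ih e
      have h2 := key (e + 1) (e + 2)
      have hsum := abs_add_le (coA q p e - coA (fun _ => 1) p e)
        (q (e + 1) * coA q p (e + 2) - 1 * coA (fun _ => 1) p (e + 2))
      rw [add_sub_add_comm]
      nlinarith [show (0 : ℝ) ≤ 2 ^ p * ε by positivity]

theorem coA_parity : ∀ p d, (p + d) % 2 = 1 → coA (fun _ => 1) p d = 0 := by
  intro p
  induction p with
  | zero => intro d h; have : d ≠ 0 := by omega
            simp [coA, this]
  | succ p ih =>
    intro d h
    rcases d with - | e <;> simp only [coA]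
    · simp [ih 1 (by omega)]
    · simp [ih e (by omega), ih (e + 2) (by omega)]

/-- The ballot numbers. -/
theorem coA_ballot : ∀ p q d, 2 * q + d = p →
    coA (fun _ => 1) p d * ((q)! * (q + d + 1)! : ℝ) = (d + 1) * (p)! := by
  intro p
  induction p with
  | zero => intro q d h; obtain ⟨rfl, rfl⟩ : q = 0 ∧ d = 0 := ⟨by omega, by omega⟩; simp [coA]
  | succ p ih =>
    intro q d h
    rcases d with - | e
    · obtain ⟨r, rfl⟩ : ∃ r, q = r + 1 := ⟨q - 1, by omega⟩
      have h1 := ih r 1 (by omega)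
      have hp : (p : ℝ) + 1 = 2 * (r + 1) := by exact_mod_cast (show p + 1 = 2 * (r + 1) by omega)
      simp only [coA, one_mul, Nat.cast_zero, zero_add, add_zero, Nat.factorial_succ p,
        Nat.factorial_succ r]
      push_cast at h1 ⊢
      rw [hp]
      linear_combination (r + 1 : ℝ) * h1
    · rcases q with - | r
      · have h1 := ih 0 e (by omega)
        obtain rfl : e = p := by omega
        simp only [coA, coA_of_lt _ (show e < e + 2 by omega), mul_zero, add_zero, zero_add,
          Nat.factorial_succ (e + 1), Nat.factorial_succ e] at h1 ⊢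
        push_cast at h1 ⊢
        linear_combination (e + 2 : ℝ) * h1
      · have h1 := ih (r + 1) e (by omega)
        have h2 := ih r (e + 2) (by omega)
        have hp : (p : ℝ) + 1 = 2 * (r + 1) + (e + 1) := by
          exact_mod_cast (show p + 1 = 2 * (r + 1) + (e + 1) by omega)
        rw [show r + (e + 2) + 1 = r + 1 + (e + 1) + 1 by omega] at h2
        simp only [coA, Nat.factorial_succ (r + 1 + (e + 1)), Nat.factorial_succ p,
          show r + 1 + e + 1 = r + 1 + (e + 1) by omega, one_mul] at h1 h2 ⊢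
        simp only [Nat.factorial_succ r] at h1 ⊢
        push_cast at h1 h2 ⊢
        rw [hp]
        linear_combination ((r : ℝ) + 1 + (e + 1) + 1) * h1 + ((r : ℝ) + 1) * h2

theorem coA_even (q : ℕ) :
    coA (fun _ => 1) (2 * q) 0 = ((2 * q)! : ℝ) / ((q)! * (q + 1)!) := by
  rw [eq_div_iff (by positivity)]
  simpa using coA_ballot (2 * q) q 0 (by simp)

/-- The terms of the Bessel series. -/
noncomputable def bess (x : ℝ) (q : ℕ) : ℝ := (-x) ^ q / ((q)! * (q + 1)!)

theorem exists_bess_zero : ∃ t : ℝ, 0 ≤ t ∧ t ≤ 2 ∧ HasSum (bess (t ^ 2)) 0 := by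
  have hb : ∀ q : ℕ, ∀ x ∈ Set.Icc (0 : ℝ) 4, ‖bess x q‖ ≤ 4 ^ q / (q)! := by
    intro q x hx
    have hd : (0 : ℝ) ≤ (q)! * (q + 1)! := by positivity
    rw [bess, norm_div, norm_pow, norm_neg, Real.norm_of_nonneg hx.1, Real.norm_of_nonneg hd]
    refine div_le_div₀ (by positivity) (pow_le_pow_left₀ hx.1 hx.2 q) (by positivity) ?_
    exact le_mul_of_one_le_right (by positivity) (Nat.one_le_cast.2 (Nat.factorial_pos _))
  have hs : ∀ x ∈ Set.Icc (0 : ℝ) 4, Summable (bess x) := fun x hx =>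
    Summable.of_norm_bounded (Real.summable_pow_div_factorial 4) fun q => hb q x hx
  have hc : ContinuousOn (fun x => ∑' q, bess x q) (Set.Icc 0 4) :=
    continuousOn_tsum (fun q => (Continuous.continuousOn (by unfold bess; fun_prop)))
      (Real.summable_pow_div_factorial 4) hb
  have h0 : ∑' q, bess 0 q = 1 := by
    rw [tsum_eq_single 0 fun q hq => by simp [bess, hq]]
    simp [bess]
  have h4 : ∑' q, bess 4 q ≤ 0 := by
    have hS := hs 4 ⟨by norm_num, le_rfl⟩
    rw [← hS.sum_add_tsum_nat_add 7]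
    have hT : ∀ i, bess 4 (i + 7) ≤ (1 / 10000) * (1 / 2) ^ i := by
      intro i
      have hi : ∀ i : ℕ, (4 : ℝ) ^ (i + 7) / ((i + 7)! * (i + 7 + 1)!) ≤
          1 / 10000 * (1 / 2) ^ i := by
        intro i
        induction i with
        | zero => norm_num [Nat.factorial]
        | succ i ih =>
          rw [show i + 1 + 7 = (i + 7) + 1 by omega, Nat.factorial_succ (i + 7 + 1)]
          conv_lhs => enter [2, 1]; rw [Nat.factorial_succ (i + 7)]
          push_cast
          rw [pow_succ (4 : ℝ) (i + 7), pow_succ (1 / 2 : ℝ) i]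
          set a := (4 : ℝ) ^ (i + 7)
          have hd : (0 : ℝ) < (i + 7)! * (i + 7 + 1)! := by positivity
          rw [show a * 4 / (((i : ℝ) + 7 + 1) * (i + 7)! *
              (((i : ℝ) + 7 + 1 + 1) * (i + 7 + 1)!)) =
            a / ((i + 7)! * (i + 7 + 1)!) * (4 / (((i : ℝ) + 7 + 1) * ((i : ℝ) + 7 + 1 + 1))) by
              field_simp]
          rw [← mul_assoc (1 / 10000 : ℝ)]
          refine mul_le_mul ih ?_ (by positivity) (by positivity)
          rw [div_le_iff₀ (by positivity)]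
          nlinarith [show (0 : ℝ) ≤ i by positivity]
      refine le_trans (le_abs_self _) ?_
      have hd : (0 : ℝ) ≤ (i + 7)! * (i + 7 + 1)! := by positivity
      rw [bess, abs_div, abs_pow, abs_neg, abs_of_nonneg hd]
      simpa using hi i
    have h2 := hasSum_geometric_two.mul_left (1 / 10000 : ℝ)
    have := hasSum_le hT ((summable_nat_add_iff 7).2 hS).hasSum h2
    rw [sum_range_succ, sum_range_succ, sum_range_succ, sum_range_succ, sum_range_succ,
      sum_range_succ, sum_range_succ, sum_range_zero]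
    norm_num [bess, Nat.factorial] at this ⊢
    linarith
  obtain ⟨x, hx, hx0⟩ := intermediate_value_Icc' (by norm_num : (0 : ℝ) ≤ 4) hc
    (show (0 : ℝ) ∈ Set.Icc _ _ from ⟨h4, by rw [h0]; norm_num⟩)
  refine ⟨√x, Real.sqrt_nonneg x, ?_, ?_⟩
  · rw [Real.sqrt_le_left (by norm_num)]
    linarith [hx.2]
  · rw [Real.sq_sqrt hx.1]
    simpa [hx0] using (hs x hx).hasSum

/-- The weight of the step from `d + 1` letters to `d`. -/
noncomputable def kap (m d : ℕ) : ℝ := if d = 0 then 1 else 1 - (2 * (m : ℝ))⁻¹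

theorem inv_two_mul_le {m : ℕ} (hm : 0 < m) : (2 * (m : ℝ))⁻¹ ≤ 1 :=
  inv_le_one_of_one_le₀ (by have : (1 : ℝ) ≤ m := Nat.one_le_cast.2 hm; linarith)

theorem kap_nonneg {m : ℕ} (hm : 0 < m) (d : ℕ) : 0 ≤ kap m d := by
  rw [kap]; split
  · norm_num
  · linarith [inv_two_mul_le hm]

theorem kap_le_one (m d : ℕ) : kap m d ≤ 1 := by
  rw [kap]; split
  · norm_num
  · have : (0 : ℝ) ≤ (2 * (m : ℝ))⁻¹ := by positivity
    linarith

theorem abs_kap_sub_one (m d : ℕ) : |kap m d - 1| ≤ (2 * (m : ℝ))⁻¹ := by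
  rw [kap]; split
  · simp
  · simp [abs_of_nonneg]

/-- The truncated coefficient of the words of length `d` in `exp (i x S)`. -/
noncomputable def cD (m : ℕ) (x : ℝ) (D d : ℕ) : ℂ :=
  ∑ p ∈ range D, (Complex.I * x) ^ p / (p)! * coA (kap m) p d

theorem norm_cD_le {m : ℕ} (hm : 0 < m) {x : ℝ} (hx : |x| ≤ 2) (D d : ℕ) :
    ‖cD m x D d‖ ≤ Real.exp 4 * 4 ^ d / (d)! := by
  have hterm : ∀ p, ‖(Complex.I * x) ^ p / ((p)! : ℂ) * coA (kap m) p d‖ ≤
      if d ≤ p then (4 : ℝ) ^ p / ((p)! : ℝ) else 0 := by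
    intro p
    split
    · rw [norm_mul, norm_div, norm_pow, norm_mul, Complex.norm_I, one_mul, Complex.norm_real,
        Complex.norm_natCast, Complex.norm_real, Real.norm_eq_abs, Real.norm_eq_abs,
        abs_of_nonneg (coA_nonneg (kap_nonneg hm) p d),
        show (4 : ℝ) ^ p = 2 ^ p * 2 ^ p by rw [← mul_pow]; norm_num, mul_div_right_comm]
      exact mul_le_mul (by gcongr) (coA_le (kap_nonneg hm) (kap_le_one m) p d)
        (coA_nonneg (kap_nonneg hm) p d) (by positivity)
    · rw [coA_of_lt _ (by omega)]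
      simp
  refine (norm_sum_le _ _).trans ((sum_le_sum fun p _ => hterm p).trans ?_)
  have hle : ∑ p ∈ range D, (if d ≤ p then (4 : ℝ) ^ p / ((p)! : ℝ) else 0) ≤
      ∑ i ∈ range D, (4 : ℝ) ^ (d + i) / (((d)! : ℝ) * (i)!) := by
    refine le_trans (le_of_eq (sum_filter _ _).symm) ?_
    rw [show (range D).filter (fun p => d ≤ p) = (range (D - d)).image (fun i => d + i) by
      ext p; simp only [mem_filter, mem_range, mem_image]
      exact ⟨fun h => ⟨p - d, by omega, by omega⟩, fun ⟨i, h, e⟩ => ⟨by omega, by omega⟩⟩]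
    rw [sum_image fun a _ b _ h => by simpa using h]
    refine le_trans (sum_le_sum fun i _ => ?_) (sum_le_sum_of_subset_of_nonneg
      (range_mono (Nat.sub_le D d)) fun i _ _ => by positivity)
    gcongr
    exact_mod_cast Nat.le_of_dvd (Nat.factorial_pos _) (Nat.factorial_mul_factorial_dvd_factorial_add d i)
  refine hle.trans ?_
  rw [show ∑ i ∈ range D, (4 : ℝ) ^ (d + i) / ((d)! * (i)!) =
      4 ^ d / ((d)! : ℝ) * ∑ i ∈ range D, (4 : ℝ) ^ i / ((i)! : ℝ) by
    rw [mul_sum]; exact sum_congr rfl fun i _ => by rw [pow_add, div_mul_div_comm]]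
  rw [mul_comm (Real.exp 4), mul_div_right_comm]
  exact mul_le_mul_of_nonneg_left (Real.sum_le_exp_of_nonneg (by norm_num) D) (by positivity)

theorem cD_zero_small {x : ℝ} (hx : |x| ≤ 2) (h0 : HasSum (bess (x ^ 2)) 0) {ε : ℝ} (hε : 0 < ε) :
    ∀ᶠ m in atTop, ∀ᶠ D in atTop, ‖cD m x D 0‖ ≤ ε := by
  set f : ℕ → ℂ := fun p => (Complex.I * x) ^ p / (p)! * coA (fun _ => 1) p 0
  have hf : HasSum f 0 := by
    rw [show (0 : ℂ) = 0 + 0 by simp]
    refine HasSum.even_add_odd ?_ ?_
    · have h := (Complex.hasSum_ofReal (f := bess (x ^ 2)) (x := 0)).2 h0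
      rw [Complex.ofReal_zero] at h
      refine h.congr_fun fun q => ?_
      simp only [f, bess, coA_even]
      push_cast
      have hne : (((2 * q)!) : ℂ) ≠ 0 := Nat.cast_ne_zero.2 (Nat.factorial_ne_zero _)
      rw [pow_mul, mul_pow, Complex.I_sq, neg_one_mul]
      field_simp
    · exact (hasSum_zero).congr_fun fun q => by simp [f, coA_parity _ _ (by omega : (2 * q + 1 + 0) % 2 = 1)]
  have h1 : ∀ᶠ D in atTop, ‖∑ p ∈ range D, f p‖ ≤ ε / 2 := by
    have h2 := tendsto_zero_iff_norm_tendsto_zero.1 hf.tendsto_sum_nat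
    exact h2.eventually_le_const (by linarith)
  have h2 : Tendsto (fun m : ℕ => (2 * (m : ℝ))⁻¹ * Real.exp 8) atTop (nhds 0) := by
    have := ((tendsto_natCast_atTop_atTop (R := ℝ)).const_mul_atTop (show (0 : ℝ) < 2 by norm_num)
      ).inv_tendsto_atTop.mul_const (Real.exp 8)
    simpa using this
  filter_upwards [h2.eventually_le_const (show (0 : ℝ) < ε / 2 by linarith), eventually_gt_atTop 0]
    with m hm hm0
  filter_upwards [h1] with D hD
  have hd : ‖cD m x D 0 - ∑ p ∈ range D, f p‖ ≤ (2 * (m : ℝ))⁻¹ * Real.exp 8 := by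
    rw [cD, ← sum_sub_distrib]
    refine (norm_sum_le _ _).trans (le_trans (sum_le_sum fun p _ => ?_) (le_trans
      (le_of_eq (mul_sum (range D) (fun p => (8 : ℝ) ^ p / (p)!) _).symm)
      (mul_le_mul_of_nonneg_left (Real.sum_le_exp_of_nonneg (by norm_num) D) (by positivity))))
    simp only [f]
    rw [← mul_sub, ← Complex.ofReal_sub, norm_mul, norm_div, norm_pow, norm_mul, Complex.norm_I,
      one_mul, Complex.norm_real, Complex.norm_natCast, Complex.norm_real, Real.norm_eq_abs,
      Real.norm_eq_abs,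
      show (2 * (m : ℝ))⁻¹ * (8 ^ p / (p)!) = 2 ^ p / (p)! * (4 ^ p * (2 * (m : ℝ))⁻¹) by
        rw [show (8 : ℝ) ^ p = 2 ^ p * 4 ^ p by rw [← mul_pow]; norm_num]; ring]
    gcongr
    refine (abs_coA_sub_le (kap_nonneg hm0) (kap_le_one m) (abs_kap_sub_one m) p 0).trans ?_
    rw [show (4 : ℝ) ^ p = 2 ^ p * 2 ^ p by rw [← mul_pow]; norm_num]
    gcongr
    exact_mod_cast Nat.lt_two_pow_self.le
  linarith [norm_le_norm_add_norm_sub' (cD m x D 0) (∑ p ∈ range D, f p)]

end Vale.Agent.P082.Lim
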