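import Vale.Agent.P082.Lim.Coef

/-!
# P082 Lim: powers of a symmetric sum in reduced words

`v` maps a finite set with an involution without fixed points to invertible elements, `flip` going
to inverses. The powers of `∑ v` are combinations of the sums over reduced words of a given length.
-/

namespace Vale.Agent.P082.Lim

open Finset
open scoped Nat

variable {ι : Type*} [Fintype ι] [DecidableEq ι]

/-- The reduced words of length `d`. -/
def red (fl : ι → ι) : ℕ → Finset (List ι)
  | 0 => {[]}
  | d + 1 => ((univ ×ˢ red fl d).filter fun p => p.2.head? ≠ some (fl p.1)).image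
      fun p => p.1 :: p.2

theorem mem_red {fl : ι → ι} : ∀ {d : ℕ} {R : List ι},
    R ∈ red fl d ↔ R.length = d ∧ R.IsChain fun x y => y ≠ fl x := by
  intro d
  induction d with
  | zero => intro R; simp [red, List.length_eq_zero_iff]; exact fun h => by simp [h]
  | succ d ih =>
    intro R
    rcases R with - | ⟨a, R⟩
    · simp [red]
    · simp only [red, mem_image, mem_filter, mem_product, mem_univ, true_and, Prod.exists,
        List.cons.injEq, List.length_cons, Nat.add_right_cancel_iff]
      constructor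
      · rintro ⟨b, S, ⟨hS, hh⟩, rfl, rfl⟩
        obtain ⟨h1, h2⟩ := ih.1 hS
        refine ⟨h1, List.isChain_cons.2 ⟨?_, h2⟩⟩
        intro y hy e
        exact hh (by rw [Option.mem_def.1 hy, e])
      · rintro ⟨h1, h2⟩
        obtain ⟨h3, h4⟩ := List.isChain_cons.1 h2
        refine ⟨a, R, ⟨ih.2 ⟨h1, h4⟩, fun e => ?_⟩, rfl, rfl⟩
        exact h3 _ (Option.mem_def.2 e) rfl

theorem sum_red_succ {E : Type*} [AddCommMonoid E] (fl : ι → ι) (d : ℕ) (f : List ι → E) :
    ∑ R ∈ red fl (d + 1), f R =
      ∑ R ∈ red fl d, ∑ i ∈ univ.filter (fun i => R.head? ≠ some (fl i)), f (i :: R) := by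
  rw [red, sum_image fun a _ b _ h => by simpa [Prod.ext_iff] using h, sum_filter,
    sum_product_right]
  exact sum_congr rfl fun R _ => by rw [sum_filter]

variable {A : Type*} [Ring A]

/-- The sum of the reduced words of length `d`. -/
def sumT (fl : ι → ι) (v : ι → A) (d : ℕ) : A := ∑ R ∈ red fl d, (R.map v).prod

theorem sum_mul_sumT_zero (fl : ι → ι) (v : ι → A) : (∑ i, v i) * sumT fl v 0 = sumT fl v 1 := by
  have h : sumT fl v 0 = 1 := by simp [sumT, red]
  rw [h, mul_one, sumT, sum_red_succ]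
  simp [red]

theorem card_allowed {fl : ι → ι} (hfl : Function.Involutive fl) (R : List ι) :
    #(univ.filter fun i => R.head? ≠ some (fl i)) =
      if R = [] then Fintype.card ι else Fintype.card ι - 1 := by
  rcases R with - | ⟨a, R⟩
  · simp
  · rw [if_neg (List.cons_ne_nil a R), show
      (univ.filter fun i => (a :: R).head? ≠ some (fl i)) = univ.erase (fl a) by
        ext i
        simp only [mem_filter, mem_univ, true_and, List.head?_cons, ne_eq, Option.some.injEq,
          mem_erase, and_true]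
        exact not_congr ⟨fun e => by rw [e, hfl i], fun e => by rw [e, hfl a]⟩]
    simp [card_erase_of_mem]

theorem sum_mul_sumT_succ {fl : ι → ι} (hfl : Function.Involutive fl) {v : ι → A}
    (hv : ∀ i, v (fl i) * v i = 1) (d : ℕ) :
    (∑ i, v i) * sumT fl v (d + 1) = sumT fl v (d + 2) +
      (if d = 0 then Fintype.card ι else Fintype.card ι - 1) • sumT fl v d := by
  have h1 : ∀ R ∈ red fl (d + 1), (∑ i, v i) * (R.map v).prod =
      (∑ i ∈ univ.filter (fun i => R.head? ≠ some (fl i)), ((i :: R).map v).prod) +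
        (R.tail.map v).prod := by
    intro R hR
    rcases R with - | ⟨a, R⟩
    · simp [mem_red] at hR
    rw [← sum_filter_add_sum_filter_not univ (fun i => (a :: R).head? ≠ some (fl i)) v, add_mul,
      sum_mul]
    congr 1
    rw [show (univ.filter fun i => ¬(a :: R).head? ≠ some (fl i)) = {fl a} by
      ext i
      simp only [mem_filter, mem_univ, true_and, ne_eq, not_not, List.head?_cons,
        Option.some.injEq, mem_singleton]
      exact ⟨fun e => by rw [e, hfl i], fun e => by rw [e, hfl a]⟩]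
    simp [← mul_assoc, hv]
  rw [sumT, mul_sum, sum_congr rfl h1, sum_add_distrib]
  congr 1
  · exact (sum_red_succ fl (d + 1) fun R => (R.map v).prod).symm
  · rw [sum_red_succ fl d fun R => (R.tail.map v).prod, sumT, smul_sum]
    refine sum_congr rfl fun R hR => ?_
    simp only [List.tail_cons, sum_const, card_allowed hfl]
    have : R = [] ↔ d = 0 := by
      rw [← List.length_eq_zero_iff, (mem_red.1 hR).1]
    simp [this]

variable [Algebra ℂ A]

/-- The powers of the normalised sum. -/
theorem pow_eq_sum {fl : ι → ι} (hfl : Function.Involutive fl) {v : ι → A}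
    (hv : ∀ i, v (fl i) * v i = 1) {s : ℂ} {q : ℕ → ℝ}
    (hq : ∀ d, (s ^ 2 * ((if d = 0 then Fintype.card ι else Fintype.card ι - 1 : ℕ) : ℂ)) = q d) :
    ∀ p D : ℕ, p < D → (s • ∑ i, v i) ^ p =
      ∑ d ∈ range D, ((coA q p d : ℂ) * s ^ d) • sumT fl v d := by
  intro p
  induction p with
  | zero =>
    intro D hD
    rw [sum_eq_single 0 (fun b _ hb => by simp [coA, hb]) (fun h => absurd (mem_range.2 hD) h)]
    simp [coA, sumT, red]
  | succ p ih =>
    intro D hD
    obtain ⟨N, rfl⟩ : ∃ N, D = N + 2 := ⟨D - 2, by omega⟩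
    have hz : (coA q p (N + 1) : ℂ) = 0 ∧ (coA q p (N + 2) : ℂ) = 0 := by
      constructor <;> simp [coA_of_lt q (show p < N + 1 by omega), coA_of_lt q (show p < N + 2 by omega)]
    rw [pow_succ', ih (N + 2) (by omega), mul_sum, sum_range_succ' _ (N + 1)]
    have hstep : ∀ d, (s • ∑ i, v i) * (((coA q p (d + 1) : ℂ) * s ^ (d + 1)) • sumT fl v (d + 1)) =
        ((coA q p (d + 1) : ℂ) * s ^ (d + 2)) • sumT fl v (d + 2) +
          ((coA q p (d + 1) : ℂ) * (q d : ℂ) * s ^ d) • sumT fl v d := by
      intro d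
      rw [mul_smul_comm, smul_mul_assoc, sum_mul_sumT_succ hfl hv, smul_smul, smul_add,
        ← Nat.cast_smul_eq_nsmul ℂ, smul_smul, ← hq d]
      congr 2 <;> ring
    have h0 : (s • ∑ i, v i) * (((coA q p 0 : ℂ) * s ^ 0) • sumT fl v 0) =
        ((coA q p 0 : ℂ) * s ^ 1) • sumT fl v 1 := by
      rw [mul_smul_comm, smul_mul_assoc, sum_mul_sumT_zero, smul_smul]
      congr 1
      ring
    simp only [hstep, h0, sum_add_distrib]
    rw [sum_range_succ' (fun d => ((coA q (p + 1) d : ℂ) * s ^ d) • sumT fl v d) (N + 1)]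
    have hsplit : ∑ k ∈ range (N + 1), ((coA q (p + 1) (k + 1) : ℂ) * s ^ (k + 1)) • sumT fl v (k + 1) =
        (∑ k ∈ range (N + 1), ((coA q p k : ℂ) * s ^ (k + 1)) • sumT fl v (k + 1)) +
          ∑ k ∈ range (N + 1),
            ((coA q p (k + 2) : ℂ) * (q (k + 1) : ℂ) * s ^ (k + 1)) • sumT fl v (k + 1) := by
      rw [← sum_add_distrib]
      refine sum_congr rfl fun k _ => ?_
      rw [← add_smul, coA]
      push_cast
      congr 1
      ring
    have hA : (∑ x ∈ range (N + 1), ((coA q p (x + 1) : ℂ) * s ^ (x + 2)) • sumT fl v (x + 2)) +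
          ((coA q p 0 : ℂ) * s ^ 1) • sumT fl v 1 =
        ∑ k ∈ range (N + 1), ((coA q p k : ℂ) * s ^ (k + 1)) • sumT fl v (k + 1) := by
      rw [sum_range_succ, sum_range_succ' _ N]
      simp [hz.1]
    have hB : (∑ x ∈ range (N + 1), ((coA q p (x + 1) : ℂ) * (q x : ℂ) * s ^ x) • sumT fl v x) =
        (∑ k ∈ range (N + 1),
            ((coA q p (k + 2) : ℂ) * (q (k + 1) : ℂ) * s ^ (k + 1)) • sumT fl v (k + 1)) +
          ((coA q (p + 1) 0 : ℂ) * s ^ 0) • sumT fl v 0 := by
      rw [sum_range_succ' _ N, sum_range_succ _ N, hz.2]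
      simp [coA, mul_comm]
    rw [hsplit, add_right_comm, hA, hB, ← add_assoc]

/-- A sum over tuples, first entry split off. -/
theorem sum_piFinset_succ {α E : Type*} [AddCommMonoid E] [DecidableEq α] (W : Finset α) (j : ℕ)
    (f : (Fin (j + 1) → α) → E) :
    ∑ s ∈ Fintype.piFinset (fun _ : Fin (j + 1) => W), f s =
      ∑ a ∈ W, ∑ s ∈ Fintype.piFinset (fun _ : Fin j => W), f (Fin.cons a s) := by
  rw [← sum_product' W _ fun a s => f (Fin.cons a s)]
  refine sum_nbij' (fun s => (s 0, Fin.tail s)) (fun p => Fin.cons p.1 p.2) ?_ ?_ ?_ ?_ ?_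
  · intro s hs
    simp only [mem_product, Fintype.mem_piFinset] at *
    exact ⟨hs 0, fun i => hs _⟩
  · intro p hp
    simp only [mem_product, Fintype.mem_piFinset] at *
    exact fun i => Fin.cases (by simpa using hp.1) (fun k => by simpa using hp.2 k) i
  · intro s _; exact Fin.cons_self_tail s
  · intro p _; simp
  · intro s _; simp

/-- The power of a sum as a sum over tuples. -/
theorem pow_sum_smul {α : Type*} [DecidableEq α] (W : Finset α) (c : α → ℂ) (b : α → A) :
    ∀ j : ℕ, (∑ a ∈ W, c a • b a) ^ j = ∑ s ∈ Fintype.piFinset (fun _ : Fin j => W),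
      (∏ i, c (s i)) • (List.ofFn fun i => b (s i)).prod := by
  intro j
  induction j with
  | zero => simp [Fintype.piFinset_of_isEmpty]
  | succ j ih =>
    rw [pow_succ', ih, sum_mul, sum_piFinset_succ]
    refine sum_congr rfl fun a _ => ?_
    rw [mul_sum]
    refine sum_congr rfl fun s _ => ?_
    rw [smul_mul_assoc, mul_smul_comm, smul_smul, Fin.prod_univ_succ, List.ofFn_succ]
    simp

/-- All reduced words shorter than `D`. -/
def redBelow (fl : ι → ι) (D : ℕ) : Finset (List ι) := (range D).biUnion (red fl)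

theorem mem_redBelow {fl : ι → ι} {D : ℕ} {R : List ι} :
    R ∈ redBelow fl D ↔ R.length < D ∧ R.IsChain fun x y => y ≠ fl x := by
  simp [redBelow, mem_red]

theorem sum_redBelow {E : Type*} [AddCommMonoid E] (fl : ι → ι) (D : ℕ) (f : List ι → E) :
    ∑ R ∈ redBelow fl D, f R = ∑ d ∈ range D, ∑ R ∈ red fl d, f R := by
  refine sum_biUnion fun a _ b _ hab => disjoint_left.2 fun R ha hb => hab ?_
  rw [← (mem_red.1 ha).1, ← (mem_red.1 hb).1]

end Vale.Agent.P082.Lim
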