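import Vale.Agent.P082.Iface
import Vale.Agent.P082.Lim.Expand

/-!
# P082 Lim: which lists of labels survive the phases, and how many there are

After averaging the fourth roots of unity every index has even multiplicity, and an index of
multiplicity two carries both signs. Lists with even multiplicities are counted by double
factorials; the other surviving lists with an index used four times are of lower order in `m`.
-/

namespace Vale.Agent.P082.Lim

open Finset
open scoped Nat

variable {m : ℕ}

/-- The multiplicity of an index. -/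
def mult (w : Fin m) (L : List (Lab m)) : ℕ := (L.map Prod.fst).count w

theorem mult_eq (w : Fin m) (L : List (Lab m)) :
    mult w L = L.count (w, true) + L.count (w, false) := by
  induction L with
  | nil => simp [mult]
  | cons l L ih =>
    obtain ⟨a, b⟩ := l
    simp only [mult, List.map_cons, List.count_cons, beq_iff_eq, Prod.mk.injEq] at ih ⊢
    cases b <;> by_cases h : a = w <;> simp [h, ih] <;> omega

/-- The phase average of the list can be nonzero. -/
def Surv (L : List (Lab m)) : Prop :=
  ∀ w, Even (mult w L) ∧ (mult w L = 2 → L.count (w, true) = 1 ∧ L.count (w, false) = 1)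

theorem I_pow_add (a b : Fin 4) :
    Complex.I ^ (a + b).val = Complex.I ^ a.val * Complex.I ^ b.val ∧
      (-Complex.I) ^ (a + b).val = (-Complex.I) ^ a.val * (-Complex.I) ^ b.val := by
  have h1 : Complex.I ^ 4 = 1 := Complex.I_pow_four
  have h2 : (-Complex.I) ^ 4 = 1 := by rw [neg_pow, h1]; norm_num
  rw [Fin.val_add, ← pow_eq_pow_mod _ h1, ← pow_eq_pow_mod _ h2, pow_add, pow_add]
  exact ⟨rfl, rfl⟩

theorem phase_shift (ζ : Fin m → Fin 4) (w : Fin m) (c : Fin 4) (L : List (Lab m)) :
    (L.map (phase (ζ + Pi.single w c))).prod =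
      (Complex.I ^ c.val) ^ L.count (w, true) * ((-Complex.I) ^ c.val) ^ L.count (w, false) *
        (L.map (phase ζ)).prod := by
  induction L with
  | nil => simp
  | cons l L ih =>
    obtain ⟨a, b⟩ := l
    simp only [List.map_cons, List.prod_cons, ih, phase, Pi.add_apply, List.count_cons, beq_iff_eq,
      Prod.mk.injEq]
    cases b <;> by_cases h : a = w
    · subst h; simp [(I_pow_add _ _).2, pow_succ]; ring
    · simp [h]; ring
    · subst h; simp [(I_pow_add _ _).1, pow_succ]; ring
    · simp [h]; ring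

theorem avg_phase_eq_zero {L : List (Lab m)} (h : ¬Surv L) :
    avg (fun ζ : Fin m → Fin 4 => (L.map (phase ζ)).prod) = 0 := by
  simp only [Surv, not_forall, not_and_or] at h
  obtain ⟨w, hw⟩ := h
  have key : ∀ c : Fin 4,
      (Complex.I ^ c.val) ^ L.count (w, true) * ((-Complex.I) ^ c.val) ^ L.count (w, false) ≠ 1 →
      ∑ ζ : Fin m → Fin 4, (L.map (phase ζ)).prod = 0 := by
    intro c hc
    have h1 := Equiv.sum_comp (Equiv.addRight (Pi.single w c))
      (fun ζ : Fin m → Fin 4 => (L.map (phase ζ)).prod)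
    simp only [Equiv.coe_addRight, phase_shift, ← mul_sum] at h1
    exact (mul_left_eq_self₀.1 h1).resolve_left hc
  suffices ∑ ζ : Fin m → Fin 4, (L.map (phase ζ)).prod = 0 by simp [avg, this]
  rcases hw with hw | ⟨h2, hc⟩
  · refine key 2 ?_
    rw [show ((2 : Fin 4) : ℕ) = 2 by rfl, neg_sq, Complex.I_sq, ← pow_add, ← mult_eq,
      (Nat.not_even_iff_odd.1 hw).neg_one_pow]
    norm_num
  · refine key 1 ?_
    rw [mult_eq] at h2
    rw [show ((1 : Fin 4) : ℕ) = 1 by rfl, pow_one, pow_one]
    obtain ⟨ht, hf⟩ | ⟨ht, hf⟩ : (L.count (w, true) = 2 ∧ L.count (w, false) = 0) ∨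
        (L.count (w, true) = 0 ∧ L.count (w, false) = 2) := by
      rcases Nat.lt_or_ge (L.count (w, true)) 1 with h' | h'
      · right; omega
      · rcases hc with hc | hc <;> omega
    all_goals rw [ht, hf]; norm_num [Complex.I_sq]

theorem norm_avg_le {α E : Type*} [Fintype α] [Nonempty α] [SeminormedAddCommGroup E]
    [NormedSpace ℂ E] {f : α → E} {b : ℝ} (h : ∀ a, ‖f a‖ ≤ b) : ‖avg f‖ ≤ b := by
  rw [avg, norm_smul, norm_inv, Complex.norm_natCast, inv_mul_le_iff₀ (by exact_mod_cast Fintype.card_pos)]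
  exact (norm_sum_le _ _).trans ((sum_le_sum fun a _ => h a).trans (by simp [Finset.card_univ]))

theorem norm_phase (ζ : Fin m → Fin 4) (l : Lab m) : ‖phase ζ l‖ = 1 := by
  rw [phase]; split <;> simp [norm_pow]

theorem norm_avg_phase_le (L : List (Lab m)) :
    ‖avg (fun ζ : Fin m → Fin 4 => (L.map (phase ζ)).prod)‖ ≤ 1 := by
  refine norm_avg_le fun ζ => ?_
  induction L with
  | nil => simp
  | cons l L ih => simp [norm_phase, ih]

theorem star_phase (ζ : Fin m → Fin 4) (l : Lab m) : star (phase ζ l) = phase ζ l.flip := by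
  obtain ⟨a, b⟩ := l
  cases b <;> simp [phase, Lab.flip]

/-- A surviving list that is not a good one uses some index four times. -/
theorem few_of_not_good {L : List (Lab m)} (hs : Surv L)
    (h : ¬(L.Nodup ∧ ∀ l ∈ L, Lab.flip l ∈ L)) :
    2 * #((L.map Prod.fst).toFinset) + 2 ≤ L.length := by
  obtain ⟨w, hw⟩ : ∃ w, 3 ≤ mult w L := by
    by_contra hne
    push Not at hne
    have hcase : ∀ w, mult w L = 0 ∨ (L.count (w, true) = 1 ∧ L.count (w, false) = 1) := by
      intro w
      obtain ⟨he, h2⟩ := hs w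
      have := hne w
      rw [Nat.even_iff] at he
      rcases (show mult w L = 0 ∨ mult w L = 2 by omega) with e | e
      · exact Or.inl e
      · exact Or.inr (h2 e)
    refine h ⟨List.nodup_iff_count_le_one.2 fun l => ?_, fun l hl => ?_⟩
    · obtain ⟨a, b⟩ := l
      rcases hcase a with e | ⟨e1, e2⟩
      · rw [mult_eq] at e; cases b <;> omega
      · cases b <;> omega
    · obtain ⟨a, b⟩ := l
      have hp := List.count_pos_iff.2 hl
      rcases hcase a with e | ⟨e1, e2⟩
      · rw [mult_eq] at e; cases b <;> omega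
      · rw [← List.count_pos_iff]
        cases b <;> simp [Lab.flip, e1, e2]
  have hsum : ∑ a ∈ (L.map Prod.fst).toFinset, mult a L = L.length := by
    simp only [mult]; rw [List.sum_toFinset_count_eq_length, List.length_map]
  have hmem : w ∈ (L.map Prod.fst).toFinset :=
    List.mem_toFinset.2 (List.count_pos_iff.1 (show 0 < mult w L by omega))
  rw [← hsum, ← add_sum_erase _ _ hmem, ← card_erase_add_one hmem]
  have hge : #((L.map Prod.fst).toFinset.erase w) • 2 ≤
      ∑ a ∈ (L.map Prod.fst).toFinset.erase w, mult a L := by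
    refine card_nsmul_le_sum _ _ _ fun a ha => ?_
    have := List.count_pos_iff.2 (List.mem_toFinset.1 (mem_of_mem_erase ha))
    obtain ⟨he, -⟩ := hs a
    rw [Nat.even_iff] at he
    simp only [mult] at he ⊢
    omega
  obtain ⟨he, -⟩ := hs w
  rw [Nat.even_iff] at he
  rw [smul_eq_mul] at hge
  omega

/-- All lists of a given length. -/
def labLists (m L : ℕ) : Finset (List (Lab m)) := (univ : Finset (Fin L → Lab m)).image List.ofFn

theorem mem_labLists {L : ℕ} {R : List (Lab m)} : R ∈ labLists m L ↔ R.length = L := by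
  simp only [labLists, mem_image, mem_univ, true_and]
  exact ⟨fun ⟨f, hf⟩ => by simp [← hf], fun h => by subst h; exact ⟨R.get, List.ofFn_get R⟩⟩

/-- The lists with even multiplicities. -/
def evLists (m L : ℕ) : Finset (List (Lab m)) := (labLists m L).filter fun R => ∀ w, Even (mult w R)

/-- The double factorials, weighted. -/
def dblK : ℕ → ℕ
  | 0 => 1
  | 1 => 0
  | L + 2 => 2 * (L + 1) * dblK L

/-- The normalising factor. -/
noncomputable def sig (m : ℕ) : ℝ := (√(2 * m : ℝ))⁻¹

theorem sig_nonneg (m : ℕ) : 0 ≤ sig m := by unfold sig; positivity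

theorem sig_sq (m : ℕ) : sig m ^ 2 = (2 * (m : ℝ))⁻¹ := by
  rw [sig, inv_pow, Real.sq_sqrt (by positivity)]

theorem insertIdx_length {α : Type*} (pre post : List α) (x : α) :
    (pre ++ post).insertIdx pre.length x = pre ++ x :: post := by
  induction pre with
  | nil => simp
  | cons a pre ih => simp [ih]

theorem evLists_card_succ (L : ℕ) :
    #(evLists m (L + 2)) ≤ 2 * m * 2 * (L + 1) * #(evLists m L) := by
  have hsub : evLists m (L + 2) ⊆
      ((((univ : Finset (Lab m)) ×ˢ (univ : Finset Bool)) ×ˢ range (L + 1)) ×ˢ evLists m L).image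
        fun q => q.1.1.1 :: q.2.insertIdx q.1.2 (q.1.1.1.1, q.1.1.2) := by
    intro R hR
    simp only [evLists, mem_filter, mem_labLists] at hR
    obtain ⟨hlen, hev⟩ := hR
    rcases R with - | ⟨l, rest⟩
    · simp at hlen
    have hodd : 0 < mult l.1 rest := by
      have := hev l.1
      simp only [mult, List.map_cons, List.count_cons_self, Nat.even_iff] at this ⊢
      omega
    obtain ⟨x, hx, hx1⟩ := List.mem_map.1 (List.count_pos_iff.1 hodd)
    obtain ⟨pre, post, rfl⟩ := List.append_of_mem hx
    simp only [mem_image, mem_product, mem_univ, true_and, mem_range]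
    refine ⟨(((l, x.2), pre.length), pre ++ post), ⟨?_, ?_⟩, ?_⟩
    · simp only [List.length_cons, List.length_append] at hlen; dsimp; omega
    · simp only [evLists, mem_filter, mem_labLists]
      refine ⟨by simp only [List.length_cons, List.length_append] at hlen ⊢; omega, fun w => ?_⟩
      have := hev w
      simp only [mult, List.map_cons, List.map_append, List.count_cons, List.count_append,
        beq_iff_eq, hx1, Nat.even_iff] at this ⊢
      split_ifs at this <;> omega
    · have : (l.1, x.2) = x := by rw [← hx1]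
      simp only [this, List.cons.injEq, true_and]
      exact insertIdx_length pre post x
  refine (card_le_card hsub).trans (card_image_le.trans ?_)
  simp [card_product, Lab]
  ring_nf
  rfl

theorem evLists_card (hm : 0 < m) : ∀ L, (#(evLists m L) : ℝ) * sig m ^ L ≤ dblK L := by
  intro L
  induction L using Nat.twoStepInduction with
  | zero =>
    simp only [pow_zero, mul_one, dblK, Nat.cast_le]
    exact card_le_one.2 fun a ha b hb => by
      simp only [evLists, mem_filter, mem_labLists, List.length_eq_zero_iff] at ha hb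
      rw [ha.1, hb.1]
  | one =>
    rw [show evLists m 1 = ∅ by
      refine Finset.filter_false_of_mem fun R hR => ?_
      obtain ⟨l, rfl⟩ := List.length_eq_one_iff.1 (mem_labLists.1 hR)
      intro h
      have := h l.1
      simp [mult] at this]
    simp
  | more L ih _ =>
    have h : (#(evLists m (L + 2)) : ℝ) ≤ 2 * m * 2 * (L + 1) * #(evLists m L) := by
      exact_mod_cast evLists_card_succ (m := m) L
    rw [pow_add, sig_sq, dblK]
    push_cast
    have hm' : (0 : ℝ) < m := Nat.cast_pos.2 hm
    calc (#(evLists m (L + 2)) : ℝ) * (sig m ^ L * (2 * (m : ℝ))⁻¹)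
        ≤ (2 * m * 2 * (L + 1) * #(evLists m L)) * (sig m ^ L * (2 * (m : ℝ))⁻¹) :=
          mul_le_mul_of_nonneg_right h (by have := sig_nonneg m; positivity)
      _ = 2 * (L + 1) * (#(evLists m L) * sig m ^ L) := by field_simp
      _ ≤ 2 * (L + 1) * dblK L := mul_le_mul_of_nonneg_left ih (by positivity)

theorem dblK_le : ∀ L, (dblK L : ℝ) ≤ 2 ^ L * √(L ! : ℝ) := by
  intro L
  induction L using Nat.twoStepInduction with
  | zero => simp [dblK]
  | one => simp [dblK]
  | more L ih _ =>
    rw [dblK]
    push_cast [Nat.factorial_succ (L + 1), Nat.factorial_succ L]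
    rw [pow_add, ← mul_assoc ((L : ℝ) + 1 + 1), Real.sqrt_mul (by positivity)]
    calc 2 * ((L : ℝ) + 1) * dblK L ≤ 2 * ((L : ℝ) + 1) * (2 ^ L * √(L ! : ℝ)) :=
          mul_le_mul_of_nonneg_left ih (by positivity)
      _ ≤ 4 * √(((L : ℝ) + 1 + 1) * ((L : ℝ) + 1)) * (2 ^ L * √(L ! : ℝ)) := by
          refine mul_le_mul_of_nonneg_right ?_ (by positivity)
          have : (L : ℝ) + 1 ≤ √(((L : ℝ) + 1 + 1) * ((L : ℝ) + 1)) :=
            Real.le_sqrt_of_sq_le (by nlinarith)
          linarith
      _ = _ := by ring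

/-- Lists using few indices are of lower order. -/
theorem few_card {L : ℕ} (hm : 0 < m) {S : Finset (List (Lab m))}
    (hS : ∀ R ∈ S, R.length = L ∧ 2 * #((R.map Prod.fst).toFinset) + 2 ≤ L) :
    (#S : ℝ) * sig m ^ L ≤ (2 * L : ℝ) ^ L / m := by
  rcases S.eq_empty_or_nonempty with rfl | ⟨R₀, hR₀⟩
  · simp; positivity
  obtain ⟨hl₀, hc₀⟩ := hS R₀ hR₀
  have hpos : 0 < #((R₀.map Prod.fst).toFinset) :=
    card_pos.2 (List.toFinset_nonempty_iff _ |>.2 (by simpa using List.ne_nil_of_length_pos (by omega)))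
  set k := L / 2 - 1 with hk
  have hk0 : 0 < k := by omega
  have hsub : S ⊆ ((univ : Finset ((Fin L → Fin k) × (Fin L → Bool) × (Fin k → Fin m)))).image
      fun q => List.ofFn fun i => (q.2.2 (q.1 i), q.2.1 i) := by
    intro R hR
    obtain ⟨hl, hc⟩ := hS R hR
    subst hl
    set A := (R.map Prod.fst).toFinset
    have hA : #A ≤ k := by omega
    have hmem : ∀ i : Fin R.length, (R.get i).1 ∈ A := fun i =>
      List.mem_toFinset.2 (List.mem_map.2 ⟨_, List.get_mem _ _, rfl⟩)
    refine mem_image.2 ⟨(fun i => Fin.castLE hA (A.equivFin ⟨_, hmem i⟩), fun i => (R.get i).2,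
      fun i => if h : (i : ℕ) < #A then (A.equivFin.symm ⟨i, h⟩).1 else ⟨0, hm⟩), mem_univ _, ?_⟩
    refine (List.ofFn_inj.2 (funext fun i => ?_)).trans (List.ofFn_get R)
    simp only [Fin.val_castLE]
    rw [dif_pos (A.equivFin ⟨_, hmem i⟩).isLt]
    simp
  have hcard : (#S : ℝ) ≤ (2 * L : ℝ) ^ L * (m : ℝ) ^ k := by
    have h := (card_le_card hsub).trans card_image_le
    simp only [card_univ, Fintype.card_prod, Fintype.card_fun, Fintype.card_fin, Fintype.card_bool] at h
    calc (#S : ℝ) ≤ ((k ^ L * (2 ^ L * m ^ k) : ℕ) : ℝ) := by exact_mod_cast h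
      _ = (2 * k : ℝ) ^ L * (m : ℝ) ^ k := by push_cast; rw [mul_pow]; ring
      _ ≤ _ := by gcongr; omega
  have hσ : sig m ^ L ≤ ((m : ℝ)⁻¹) ^ (k + 1) := by
    have h1 : sig m ≤ 1 := by
      rw [← abs_of_nonneg (sig_nonneg m), ← sq_le_one_iff_abs_le_one, sig_sq]
      exact inv_two_mul_le hm
    calc sig m ^ L ≤ sig m ^ (2 * (k + 1)) := pow_le_pow_of_le_one (sig_nonneg m) h1 (by omega)
      _ = ((2 * (m : ℝ))⁻¹) ^ (k + 1) := by rw [pow_mul, sig_sq]
      _ ≤ _ := by
        gcongr
        have : (1 : ℝ) ≤ m := Nat.one_le_cast.2 hm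
        linarith
  have hm' : (0 : ℝ) < m := Nat.cast_pos.2 hm
  calc (#S : ℝ) * sig m ^ L ≤ ((2 * L : ℝ) ^ L * (m : ℝ) ^ k) * ((m : ℝ)⁻¹) ^ (k + 1) :=
        mul_le_mul hcard hσ (pow_nonneg (sig_nonneg m) L) (by positivity)
    _ = (2 * L : ℝ) ^ L / m := by rw [pow_succ, inv_pow]; field_simp

end Vale.Agent.P082.Lim
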