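import Vale.Agent.P082.Lim.Count

/-!
# P082 Lim: the weight of all surviving pairs of tuples of reduced words

A pair of `j`-tuples of lists is weighted by coefficients that decay like `4 ^ d / d !` and the
normalisation. The total weight of the surviving pairs is bounded uniformly in `m`, the pairs with a
long word are uniformly negligible and those with an index used four times are `O (1 / m)`.
-/

namespace Vale.Agent.P082.Lim

open Finset Filter
open scoped Nat

variable {m j : ℕ}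

/-- Two tuples of lists of labels. -/
abbrev Pair (m j : ℕ) := (Fin j → List (Lab m)) × (Fin j → List (Lab m))

/-- The lengths of all the words of a pair. -/
def lens (p : Pair m j) : Fin j ⊕ Fin j → ℕ :=
  Sum.elim (fun i => (p.1 i).length) fun i => (p.2 i).length

/-- The weight of a pair. -/
noncomputable def wt (γ : ℕ → ℝ) (p : Pair m j) : ℝ := ∏ i, γ (lens p i) * sig m ^ lens p i

theorem wt_nonneg {γ : ℕ → ℝ} (hγ : ∀ d, 0 ≤ γ d) (p : Pair m j) : 0 ≤ wt γ p :=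
  prod_nonneg fun _ _ => mul_nonneg (hγ _) (pow_nonneg (sig_nonneg m) _)

theorem length_pairLabels (p : Pair m j) : (pairLabels p.1 p.2).length = ∑ i, lens p i := by
  simp [pairLabels, lens, List.length_flatten, List.map_ofFn, List.sum_ofFn, Fintype.sum_sum_type]

theorem flip_injective : Function.Injective (Lab.flip (m := m)) := fun a b h => by
  have := congrArg Lab.flip h
  simpa [Lab.flip] using this

theorem pairLabels_inj {p p' : Pair m j} (hl : lens p = lens p')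
    (h : pairLabels p.1 p.2 = pairLabels p'.1 p'.2) : p = p' := by
  have h1 : ∀ i, (p.1 i).length = (p'.1 i).length := fun i => congrFun hl (Sum.inl i)
  have h2 : ∀ i, (p.2 i).length = (p'.2 i).length := fun i => congrFun hl (Sum.inr i)
  have hA : (List.ofFn p.1).flatten.length = (List.ofFn p'.1).flatten.length := by
    simp [List.length_flatten, List.map_ofFn, List.sum_ofFn, h1]
  obtain ⟨e1, e2⟩ := List.append_inj h hA
  have e2' := (List.map_injective_iff.2 flip_injective) e2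
  refine Prod.ext (List.ofFn_injective (List.eq_iff_flatten_eq.2 ⟨e1, ?_⟩))
    (List.ofFn_injective (List.eq_iff_flatten_eq.2 ⟨e2', ?_⟩))
  · simp [List.map_ofFn, Function.comp_def, h1]
  · simp [List.map_ofFn, Function.comp_def, h2]

theorem pair_sum_le {γ : ℕ → ℝ} (hγ : ∀ d, 0 ≤ γ d) (Q : Finset (Pair m j))
    (T : Fin j ⊕ Fin j → Finset ℕ) (hT : ∀ p ∈ Q, ∀ i, lens p i ∈ T i)
    (b : (Fin j ⊕ Fin j → ℕ) → ℝ)
    (hb : ∀ ℓ, ∀ S : Finset (List (Lab m)),
      (∀ R ∈ S, ∃ p ∈ Q, lens p = ℓ ∧ pairLabels p.1 p.2 = R) →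
        (#S : ℝ) * sig m ^ (∑ i, ℓ i) ≤ b ℓ) :
    ∑ p ∈ Q, wt γ p ≤ ∑ ℓ ∈ Fintype.piFinset T, (∏ i, γ (ℓ i)) * b ℓ := by
  rw [← sum_fiberwise_of_maps_to (g := lens) (t := Fintype.piFinset T)
    fun p hp => Fintype.mem_piFinset.2 (hT p hp)]
  refine sum_le_sum fun ℓ _ => ?_
  have hinj : Set.InjOn (fun p : Pair m j => pairLabels p.1 p.2) (Q.filter fun p => lens p = ℓ) := by
    intro p hp p' hp' e
    simp only [coe_filter, Set.mem_ofPred_eq] at hp hp'
    exact pairLabels_inj (hp.2.trans hp'.2.symm) e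
  have hconst : ∀ p ∈ Q.filter (fun p => lens p = ℓ),
      wt γ p = (∏ i, γ (ℓ i)) * sig m ^ (∑ i, ℓ i) := by
    intro p hp
    rw [wt, prod_mul_distrib, prod_pow_eq_pow_sum, (mem_filter.1 hp).2]
  rw [sum_congr rfl hconst, sum_const, nsmul_eq_mul, ← card_image_of_injOn hinj, mul_left_comm]
  refine mul_le_mul_of_nonneg_left (hb ℓ _ fun R hR => ?_) (prod_nonneg fun i _ => hγ _)
  obtain ⟨p, hp, rfl⟩ := mem_image.1 hR
  exact ⟨p, (mem_filter.1 hp).1, (mem_filter.1 hp).2, rfl⟩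

theorem factorial_sum_le {α : Type*} [DecidableEq α] (f : α → ℕ) (s : Finset α) :
    (∑ i ∈ s, f i)! ≤ 2 ^ (#s * ∑ i ∈ s, f i) * ∏ i ∈ s, (f i)! := by
  induction s using Finset.induction with
  | empty => simp
  | insert a s ha ih =>
    rw [sum_insert ha, prod_insert ha, card_insert_of_notMem ha]
    set S := ∑ i ∈ s, f i
    calc (f a + S)! = (f a + S).choose (f a) * (f a)! * S ! := by
          rw [← Nat.choose_mul_factorial_mul_factorial (Nat.le_add_right (f a) S),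
            Nat.add_sub_cancel_left]
      _ ≤ 2 ^ (f a + S) * (f a)! * (2 ^ (#s * S) * ∏ i ∈ s, (f i)!) := by
          gcongr; exact Nat.choose_le_two_pow _ _
      _ = 2 ^ (f a + S + #s * S) * ((f a)! * ∏ i ∈ s, (f i)!) := by rw [pow_add _ (f a + S)]; ring
      _ ≤ _ := by
          gcongr
          · norm_num
          · nlinarith

/-- The base of the bound. -/
def bse (j : ℕ) : ℝ := 2 * 2 ^ (j + j)

/-- A coefficient, weighted for the count. -/
noncomputable def gW (j : ℕ) (γ : ℕ → ℝ) (d : ℕ) : ℝ := γ d * (bse j ^ d * √(d ! : ℝ))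

/-- The majorant of the weighted coefficients. -/
noncomputable def hW (j : ℕ) (d : ℕ) : ℝ := Real.exp 4 * ((4 * bse j) ^ d / √(d ! : ℝ))

theorem one_le_bse (j : ℕ) : 1 ≤ bse j := by
  have : (1 : ℝ) ≤ 2 ^ (j + j) := one_le_pow₀ (by norm_num)
  unfold bse; linarith

theorem hW_nonneg (j d : ℕ) : 0 ≤ hW j d := by
  have := one_le_bse j; unfold hW; positivity

theorem summable_hW (j : ℕ) : Summable (hW j) := by
  set y := 2 * (4 * bse j) with hy
  refine (Summable.of_nonneg_of_le (fun d => ?_) (fun d => ?_)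
    (((Real.summable_pow_div_factorial (y ^ 2)).add (summable_geometric_of_lt_one
      (r := (1 / 4 : ℝ)) (by norm_num) (by norm_num))).mul_left (1 / 2 : ℝ))).mul_left (Real.exp 4)
  · have := one_le_bse j; positivity
  · have hd : (0 : ℝ) < d ! := by positivity
    have e : (4 * bse j) ^ d / √(d ! : ℝ) = (y ^ d / √(d ! : ℝ)) * (1 / 2) ^ d := by
      rw [hy, mul_pow 2 (4 * bse j), one_div_pow]; field_simp
    have h2 : (y ^ 2) ^ d / (d ! : ℝ) = (y ^ d / √(d ! : ℝ)) ^ 2 := by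
      rw [div_pow, Real.sq_sqrt hd.le, ← pow_mul, ← pow_mul, mul_comm]
    rw [e, h2, show (1 / 4 : ℝ) ^ d = ((1 / 2 : ℝ) ^ d) ^ 2 by rw [← pow_mul, mul_comm, pow_mul]; norm_num]
    nlinarith [sq_nonneg (y ^ d / √(d ! : ℝ) - (1 / 2) ^ d)]

theorem gW_le_hW {γ : ℕ → ℝ} (hγ : ∀ d, γ d ≤ Real.exp 4 * 4 ^ d / d !) (j d : ℕ) :
    gW j γ d ≤ hW j d := by
  have := one_le_bse j
  refine (mul_le_mul_of_nonneg_right (hγ d) (by positivity)).trans (le_of_eq ?_)
  have hd : (0 : ℝ) < d ! := by positivity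
  rw [hW, mul_pow]
  have hsq := Real.mul_self_sqrt hd.le
  field_simp
  linear_combination hsq

theorem le_gW {γ : ℕ → ℝ} (hγ : ∀ d, 0 ≤ γ d) (j d : ℕ) : γ d ≤ gW j γ d :=
  le_mul_of_one_le_right (hγ d) (one_le_mul_of_one_le_of_one_le (one_le_pow₀ (one_le_bse j))
    (Real.one_le_sqrt.2 (Nat.one_le_cast.2 (Nat.factorial_pos d))))

theorem dblK_le_prod (ℓ : Fin j ⊕ Fin j → ℕ) :
    (dblK (∑ i, ℓ i) : ℝ) ≤ ∏ i, (bse j ^ ℓ i * √((ℓ i)! : ℝ)) := by
  refine (dblK_le _).trans ?_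
  have h : ((∑ i, ℓ i)! : ℝ) ≤ (2 : ℝ) ^ ((j + j) * ∑ i, ℓ i) * ∏ i, ((ℓ i)! : ℝ) := by
    have := factorial_sum_le ℓ univ
    rw [show #(univ : Finset (Fin j ⊕ Fin j)) = j + j by simp] at this
    exact_mod_cast this
  set a : ℝ := (2 : ℝ) ^ ((j + j) * ∑ i, ℓ i)
  have ha : √a ≤ a := Real.sqrt_le_self_iff.2 (Or.inr (one_le_pow₀ (by norm_num)))
  rw [prod_mul_distrib, prod_pow_eq_pow_sum, ← Real.sqrt_prod _ (fun i _ => by positivity),
    bse, mul_pow, ← pow_mul, mul_assoc]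
  refine mul_le_mul_of_nonneg_left ?_ (by positivity)
  refine (Real.sqrt_le_sqrt h).trans ?_
  rw [Real.sqrt_mul (by positivity)]
  exact mul_le_mul_of_nonneg_right ha (by positivity)

/-- The weight of pairs with even multiplicities, lengths in given sets. -/
theorem wt_sum_even (hm : 0 < m) {γ : ℕ → ℝ} (hγ : ∀ d, 0 ≤ γ d) (Q : Finset (Pair m j))
    (T : Fin j ⊕ Fin j → Finset ℕ) (hT : ∀ p ∈ Q, ∀ i, lens p i ∈ T i)
    (hQ : ∀ p ∈ Q, Surv (pairLabels p.1 p.2)) :
    ∑ p ∈ Q, wt γ p ≤ ∏ i, ∑ d ∈ T i, gW j γ d := by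
  refine (pair_sum_le hγ Q T hT (fun ℓ => (dblK (∑ i, ℓ i) : ℝ)) fun ℓ S hS => ?_).trans ?_
  · refine le_trans (mul_le_mul_of_nonneg_right ?_ (pow_nonneg (sig_nonneg m) _)) (evLists_card hm _)
    refine Nat.cast_le.2 (card_le_card fun R hR => ?_)
    obtain ⟨p, hp, rfl, rfl⟩ := hS R hR
    exact mem_filter.2 ⟨mem_labLists.2 (length_pairLabels p), fun w => (hQ p hp w).1⟩
  · rw [prod_univ_sum]
    refine sum_le_sum fun ℓ _ => ?_
    simp only [gW, prod_mul_distrib]
    refine mul_le_mul_of_nonneg_left ?_ (prod_nonneg fun i _ => hγ _)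
    rw [← prod_mul_distrib]
    exact dblK_le_prod ℓ

/-- The weight of short pairs using few indices. -/
theorem wt_sum_few (hm : 0 < m) {γ : ℕ → ℝ} (hγ : ∀ d, 0 ≤ γ d) {P : ℕ} (Q : Finset (Pair m j))
    (T : Fin j ⊕ Fin j → Finset ℕ) (hT : ∀ p ∈ Q, ∀ i, lens p i ∈ T i)
    (hQ : ∀ p ∈ Q, (pairLabels p.1 p.2).length ≤ P ∧
      2 * #(((pairLabels p.1 p.2).map Prod.fst).toFinset) + 2 ≤ (pairLabels p.1 p.2).length) :
    ∑ p ∈ Q, wt γ p ≤ ((2 * P : ℝ) ^ P / m) * ∏ i, ∑ d ∈ T i, γ d := by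
  refine (pair_sum_le hγ Q T hT (fun _ => (2 * P : ℝ) ^ P / m) fun ℓ S hS => ?_).trans (le_of_eq ?_)
  · rcases S.eq_empty_or_nonempty with rfl | ⟨R₀, hR₀⟩
    · simp; positivity
    obtain ⟨p, hp, rfl, -⟩ := hS R₀ hR₀
    obtain ⟨hP, hf⟩ := hQ p hp
    rw [length_pairLabels] at hP hf
    refine (few_card (L := ∑ i, lens p i) hm fun R hR => ?_).trans ?_
    · obtain ⟨q, hq, hl, rfl⟩ := hS R hR
      refine ⟨by rw [length_pairLabels, hl], ?_⟩
      rw [← hl, ← length_pairLabels]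
      exact (hQ q hq).2
    · refine div_le_div_of_nonneg_right ?_ (by positivity)
      calc (2 * (∑ i, lens p i : ℕ) : ℝ) ^ (∑ i, lens p i)
          ≤ (2 * P : ℝ) ^ (∑ i, lens p i) := by gcongr
        _ ≤ _ := pow_le_pow_right₀ (by
            have : (2 : ℝ) ≤ (P : ℕ) := by exact_mod_cast (show 2 ≤ P by omega)
            linarith) hP
  · rw [prod_univ_sum, mul_sum]
    exact sum_congr rfl fun ℓ _ => mul_comm _ _

end Vale.Agent.P082.Lim
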