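import Vale.Agent.P082.Lim.Sum

/-!
# P082 Lim: the expansion of the powers of the witness unitary in words

Truncate `exp (i x S)` at `D` terms, write it in reduced words, take the power, and average: the
result is a finite sum over pairs of tuples of reduced words, phase average times walk average.
-/

namespace Vale.Agent.P082.Lim

open Finset Filter
open scoped InnerProductSpace Nat

universe u

variable {H : Type u} [NormedAddCommGroup H] [InnerProductSpace ℂ H] [CompleteSpace H]
variable {M : VonNeumannAlgebra H} (W : Walk M) {m n j : ℕ}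

theorem word_mem (y : Fin n → Fin W.size) : W.word y ∈ unitary (Alg M) :=
  Submonoid.list_prod_mem _ fun x hx => by
    obtain ⟨i, rfl⟩ := List.mem_ofFn.1 hx
    exact W.unit _

theorem letter_mem (r : Fin m → Fin n → Fin W.size) (l : Lab m) :
    W.letter r l ∈ unitary (Alg M) := by
  rw [Walk.letter]
  split
  · exact word_mem W _
  · exact Unitary.star_mem (word_mem W _)

theorem letter_flip (r : Fin m → Fin n → Fin W.size) (l : Lab m) :
    W.letter r l.flip = star (W.letter r l) := by
  obtain ⟨a, b⟩ := l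
  cases b <;> simp [Walk.letter, Lab.flip]

theorem block_mem (r : Fin m → Fin n → Fin W.size) (b : List (Lab m)) :
    W.block r b ∈ unitary (Alg M) :=
  Submonoid.list_prod_mem _ fun x hx => by
    obtain ⟨l, _, rfl⟩ := List.mem_map.1 hx
    exact letter_mem W r l

theorem blocks_mem (r : Fin m → Fin n → Fin W.size) {pre post : Alg M}
    (hp : pre ∈ unitary (Alg M)) (hq : post ∈ unitary (Alg M)) (s : Fin j → List (Lab m)) :
    W.blocks r pre post s ∈ unitary (Alg M) :=
  Submonoid.list_prod_mem _ fun x hx => by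
    obtain ⟨i, rfl⟩ := List.mem_ofFn.1 hx
    exact mul_mem (mul_mem hp (block_mem W r _)) hq

/-- The configurations. -/
abbrev Om (W : Walk M) (m n : ℕ) := (Fin m → Fin n → Fin W.size) × (Fin m → Fin 4)

/-- The weighted letter. -/
noncomputable def wl (ω : Om W m n) (l : Lab m) : Alg M := phase ω.2 l • W.letter ω.1 l

theorem wl_flip_mul (ω : Om W m n) (l : Lab m) : wl W ω l.flip * wl W ω l = 1 := by
  rw [wl, wl, smul_mul_smul_comm, letter_flip, Unitary.star_mul_self_of_mem (letter_mem W _ l),
    ← star_phase, Complex.star_def, Complex.conj_mul', norm_phase]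
  simp

theorem randS_eq (ω : Om W m n) : W.randS ω = ((sig m : ℝ) : ℂ) • ∑ l, wl W ω l := by
  rw [Walk.randS, sig, Complex.ofReal_inv]
  rfl

theorem isSelfAdjoint_randS (ω : Om W m n) : IsSelfAdjoint (W.randS ω) := by
  rw [IsSelfAdjoint, randS_eq, star_smul, Complex.star_def, Complex.conj_ofReal, star_sum]
  congr 1
  refine Fintype.sum_equiv
    (Function.Involutive.toPerm Lab.flip fun l => by simp [Lab.flip]) _ _ fun l => ?_
  change _ = wl W ω l.flip
  rw [wl, wl, letter_flip, ← star_phase, star_smul]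

theorem lab_flip_invol : Function.Involutive (Lab.flip (m := m)) := fun l => by simp [Lab.flip]

theorem randS_pow (hm : 0 < m) (ω : Om W m n) {p D : ℕ} (h : p < D) :
    W.randS ω ^ p = ∑ R ∈ redBelow Lab.flip D,
      ((coA (kap m) p R.length : ℂ) * ((sig m : ℝ) : ℂ) ^ R.length) • (R.map (wl W ω)).prod := by
  rw [randS_eq, pow_eq_sum (q := kap m) lab_flip_invol (wl_flip_mul W ω) ?_ p D h, sum_redBelow]
  · refine sum_congr rfl fun d _ => ?_
    rw [sumT, smul_sum]
    exact sum_congr rfl fun R hR => by rw [(mem_red.1 hR).1]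
  · intro d
    rw [← Complex.ofReal_pow, sig_sq, kap]
    have hm' : (m : ℂ) ≠ 0 := Nat.cast_ne_zero.2 hm.ne'
    simp only [Fintype.card_prod, Fintype.card_fin, Fintype.card_bool]
    split
    · push_cast; field_simp
    · rw [Nat.cast_sub (by omega)]; push_cast; field_simp

/-- The truncated exponential. -/
noncomputable def expD (x : ℝ) (D : ℕ) (ω : Om W m n) : Alg M :=
  ∑ p ∈ range D, ((Complex.I * x) ^ p / (p ! : ℂ)) • W.randS ω ^ p

theorem tendsto_expD (x : ℝ) (ω : Om W m n) :
    Tendsto (fun D => expD W x D ω) atTop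
      (nhds (NormedSpace.exp ((Complex.I * (x : ℂ)) • W.randS ω))) := by
  have h := (NormedSpace.exp_series_hasSum_exp' (𝕂 := ℂ)
    ((Complex.I * (x : ℂ)) • W.randS ω)).tendsto_sum_nat
  refine h.congr fun D => sum_congr rfl fun p _ => ?_
  rw [smul_pow, smul_smul, div_eq_inv_mul]

/-- The coefficient of a list. -/
noncomputable def wR (m : ℕ) (x : ℝ) (D : ℕ) (R : List (Lab m)) : ℂ :=
  cD m x D R.length * ((sig m : ℝ) : ℂ) ^ R.length

theorem wl_prod (ω : Om W m n) (R : List (Lab m)) :
    (R.map (wl W ω)).prod = (R.map (phase ω.2)).prod • W.block ω.1 R := by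
  induction R with
  | nil => simp [Walk.block]
  | cons l R ih =>
    simp only [Walk.block] at ih ⊢
    rw [List.map_cons, List.prod_cons, ih, wl, smul_mul_smul_comm]
    simp

theorem expD_eq (hm : 0 < m) (x : ℝ) (D : ℕ) (ω : Om W m n) :
    expD W x D ω = ∑ R ∈ redBelow Lab.flip D,
      (wR m x D R * (R.map (phase ω.2)).prod) • W.block ω.1 R := by
  rw [expD, sum_congr rfl fun p hp => by rw [randS_pow W hm ω (mem_range.1 hp), smul_sum]]
  rw [sum_comm]
  refine sum_congr rfl fun R _ => ?_
  simp only [smul_smul, wl_prod]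
  rw [← sum_smul, wR, cD, sum_mul, sum_mul]
  congr 1
  exact sum_congr rfl fun p _ => by ring

/-- The truncated power. -/
noncomputable def powD (x : ℝ) (D j : ℕ) (pre post : Alg M) (ω : Om W m n) : Alg M :=
  (pre * expD W x D ω * post) ^ j

/-- The coefficient of a tuple. -/
noncomputable def cof (m : ℕ) (x : ℝ) (D : ℕ) (s : Fin j → List (Lab m)) : ℂ :=
  ∏ i, wR m x D (s i)

theorem powD_eq (hm : 0 < m) (x : ℝ) (D : ℕ) (pre post : Alg M) (ω : Om W m n) :
    powD W x D j pre post ω = ∑ s ∈ Fintype.piFinset (fun _ : Fin j => redBelow Lab.flip D),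
      (cof m x D s * ((List.ofFn s).flatten.map (phase ω.2)).prod) • W.blocks ω.1 pre post s := by
  rw [powD, expD_eq W hm, mul_sum, sum_mul]
  simp only [mul_smul_comm, smul_mul_assoc]
  rw [pow_sum_smul]
  refine sum_congr rfl fun s _ => ?_
  rw [prod_mul_distrib, List.map_flatten, List.prod_flatten, List.map_ofFn, List.map_ofFn,
    List.prod_ofFn]
  rfl

/-- The trace functional. -/
noncomputable def trL (ξ : H) : Alg M →L[ℂ] ℂ :=
  LinearMap.mkContinuous
    { toFun := fun a => tr ξ a
      map_add' := fun a b => by simp [tr, ev]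
      map_smul' := fun c a => by simp [tr, ev] }
    (‖ξ‖ ^ 2) fun a => by
      refine (norm_inner_le_norm _ _).trans ?_
      rw [sq, mul_assoc]
      refine mul_le_mul_of_nonneg_left ?_ (norm_nonneg _)
      rw [mul_comm]
      exact ContinuousLinearMap.le_opNorm _ _

theorem trL_apply (ξ : H) (a : Alg M) : trL ξ a = tr ξ a := rfl

theorem norm_tr_le {ξ : H} (hξ : IsTrVec M ξ) (a : Alg M) : ‖tr ξ a‖ ≤ ‖a‖ := by
  refine (norm_inner_le_norm _ _).trans ?_
  refine (mul_le_mul_of_nonneg_left (ContinuousLinearMap.le_opNorm _ _) (norm_nonneg _)).trans ?_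
  simp [hξ.norm]

theorem avg_sum {α β E : Type*} [Fintype α] [AddCommMonoid E] [Module ℂ E] (s : Finset β)
    (f : α → β → E) : avg (fun a => ∑ b ∈ s, f a b) = ∑ b ∈ s, avg fun a => f a b := by
  simp only [avg]
  rw [sum_comm, smul_sum]

theorem avg_mul {α β : Type*} [Fintype α] [Fintype β] (c : ℂ) (f : β → ℂ) (g : α → ℂ) :
    avg (fun p : α × β => c * f p.2 * g p.1) = c * avg f * avg g := by
  simp only [avg, smul_eq_mul, Fintype.card_prod, Nat.cast_mul, mul_inv, Fintype.sum_prod_type,
    ← mul_sum, ← sum_mul]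
  ring

theorem star_prod_phase (ζ : Fin m → Fin 4) (L : List (Lab m)) :
    star (L.map (phase ζ)).prod = ((L.map Lab.flip).map (phase ζ)).prod := by
  induction L with
  | nil => simp
  | cons l L ih => rw [List.map_cons, List.prod_cons, star_mul', ih, star_phase]; simp

/-- The average of the truncated expression. -/
noncomputable def avgD (ξ : H) (G : Alg M →L[ℂ] Alg M) (x : ℝ) (D j n : ℕ) (pre post η : Alg M)
    (m : ℕ) : ℂ :=
  avg fun ω : Om W m n =>
    tr ξ (G (powD W x D j pre post ω) * star (powD W x D j pre post ω) * η)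

/-- The pairs of tuples of reduced words. -/
noncomputable def pairs (m j D : ℕ) : Finset (Pair m j) :=
  Fintype.piFinset (fun _ : Fin j => redBelow Lab.flip D) ×ˢ
    Fintype.piFinset (fun _ : Fin j => redBelow Lab.flip D)

/-- The coefficient of a pair times its phase average. -/
noncomputable def coef (x : ℝ) (D : ℕ) (p : Pair m j) : ℂ :=
  cof m x D p.1 * star (cof m x D p.2) *
    avg fun ζ : Fin m → Fin 4 => ((pairLabels p.1 p.2).map (phase ζ)).prod

/-- The walk average of a pair. -/
noncomputable def valP (ξ : H) (G : Alg M →L[ℂ] Alg M) (n : ℕ) (pre post η : Alg M)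
    (p : Pair m j) : ℂ :=
  avg fun r : Fin m → Fin n → Fin W.size =>
    tr ξ (G (W.blocks r pre post p.1) * star (W.blocks r pre post p.2) * η)

theorem avgD_eq (hm : 0 < m) (ξ : H) (G : Alg M →L[ℂ] Alg M) (x : ℝ) (D n : ℕ)
    (pre post η : Alg M) :
    avgD W ξ G x D j n pre post η m =
      ∑ p ∈ pairs m j D, coef x D p * valP W ξ G n pre post η p := by
  unfold avgD pairs coef valP
  rw [sum_product]
  simp only [← trL_apply, powD_eq W hm, star_sum, star_smul, map_sum, map_smul, sum_mul, mul_sum,
    smul_mul_assoc, mul_smul_comm, smul_sum, smul_smul, smul_eq_mul]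
  rw [avg_sum, sum_comm]
  refine sum_congr rfl fun sB _ => ?_
  rw [avg_sum]
  refine sum_congr rfl fun sA _ => ?_
  rw [← avg_mul]
  congr 1
  funext ω
  rw [pairLabels, List.map_append, List.prod_append, ← star_prod_phase, star_mul']
  ring

end Vale.Agent.P082.Lim
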